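import Crest.Agent.X37.LB.Core
import Crest.Agent.X37.Gr.Classes
import Crest.Agent.X37.Outer.Defs
import Crest.Agent.X37.KS.Alg
import Crest.Agent.X37.PT.Inv
import Crest.Agent.X37.KS.Loop
import Crest.Agent.X37.KS.Step
import Crest.Agent.X37.KS.Dir
import Crest.Agent.X37.IO.Defs
import Crest.Agent.X37.Gr.Defs
import Crest.Agent.X37.PT.Mat
import Crest.Agent.X37.Inner.Defs
import Crest.Agent.X37.Inner.Res
import Crest.Agent.X37.Solv
import Crest.Agent.X37.Inner.Main_Mg

-- ▼ part X37/LB/LemmaB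
section

/-!
Row 37, Lemma B: the geometric claim implies the bound consumed by the outer loop.
-/

set_option autoImplicit false

namespace Crest.Agent.X37.LB

open Finset

/-- **Lemma B** for the classes of partition connectivity -/
theorem geomBound {C : ℝ} (hC : 0 < C) (hcl : Claim C) {V E : Type} [Fintype V] [DecidableEq V]
    [Fintype E] [DecidableEq E] (src tgt : E → V) (k : ℕ) (gap K del : ℝ) (p : ℕ) (hk : 1 ≤ k)
    (hgap : 0 < gap) (hpc : PC src tgt (k + gap) univ) (hK : 1 ≤ K) (hdel : 0 < del)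
    (hdel1 : del ≤ 1) (hCp : C ≤ del * 2 ^ p) (hkp : 8 * k * K ≤ 2 ^ p) :
    Outer.GeomBound src tgt (Rel src tgt k) K
      (16 * del + (2 + 12 * C * (p + 4 * K) / del) / gap) := by
  intro I _ l d X u good hl hd hdl hX hu hud hg
  have hW : 0 ≤ ∑ e, l e := sum_nonneg fun e _ => zero_le_one.trans (hl e)
  rcases good.eq_empty_or_nonempty with rfl | ⟨e0, -⟩
  · rw [sum_empty]; positivity
  haveI : Nonempty V := ⟨src e0⟩
  have hk1 : (1 : ℝ) ≤ k := by exact_mod_cast hk
  have hk0 : (0 : ℝ) < k := by linarith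
  obtain ⟨n, hn1, hn2⟩ := exists_nat_pow_near (x := 2 * K) (y := (2 : ℝ)) (by linarith)
    (by norm_num)
  set q := n + 1 with hq
  have hq4 : (2 : ℝ) ^ q ≤ 4 * K := by rw [hq, pow_succ]; linarith
  have hqp : q + 1 ≤ p := by
    have h : (2 : ℝ) ^ (q + 1) ≤ 2 ^ p := by rw [pow_succ]; nlinarith
    exact (pow_le_pow_iff_right₀ (by norm_num : (1 : ℝ) < 2)).1 h
  set s0 : ℝ := 1 / 2 ^ (p + q) with hs0def
  have hs0 : 0 < s0 := by positivity
  have hsmall : ∀ i, i < p + q → s0 * 2 ^ i < 1 := fun i hi => by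
    rw [hs0def, one_div, inv_mul_lt_iff₀ (by positivity), mul_one]
    exact pow_lt_pow_right₀ (by norm_num) hi
  let A : ℕ → Finset E := fun i => univ.filter fun f => l f ≤ s0 * 2 ^ i
  have hN : ∀ i, ncl (cls src tgt k (A i)) = Ncl src tgt k (A i) := fun i => by
    rw [cast_Ncl]; rfl
  have key := lemmaB_core hC.le hcl src tgt l d X u good (fun i => cls src tgt k (A i))
    (s0 := s0) (del := del) (gap := gap) (k := k) p q hd.self hd.symm hd.tri hdl hX hu hud hs0
    (fun e => (hsmall q (by omega)).trans_le (hl e)) hdel hdel1 hgap hCp hqp (by nlinarith)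
    (fun i hi a b hab => by
      refine Rel.eq_of_loops hk0 (fun e he => ?_) (cls_eq_iff.1 hab)
      have h1 := (mem_filter.1 he).2
      have h2 := hsmall i (by omega)
      have h3 := hl e
      linarith)
    (fun i a b hab => by
      refine cls_mono (fun e he => mem_filter.2 ⟨mem_univ _, (mem_filter.1 he).2.trans ?_⟩) hab
      exact mul_le_mul_of_nonneg_left (pow_le_pow_right₀ (by norm_num) (Nat.le_succ i)) hs0.le)
    (fun i a b hab => by
      refine Relation.ReflTransGen.mono (fun x y hxy => ?_) _ _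
        (Rel.reflTransGen hk0 (cls_eq_iff.1 hab))
      obtain ⟨h1, e, he, h2⟩ := hxy
      refine ⟨cls_eq_iff.2 h1, ?_⟩
      have h3 := (hdl e).trans (mem_filter.1 he).2
      rcases h2 with ⟨rfl, rfl⟩ | ⟨rfl, rfl⟩
      · exact h3
      · rw [hd.symm]; exact h3)
    (fun i => by
      rw [hN]
      refine le_trans (Nat.cast_le.2 (card_le_card fun e he => ?_)) card_cross_cls_le
      obtain ⟨-, h1, h2⟩ := mem_filter.1 he
      exact mem_cross.2 ⟨mem_filter.2 ⟨mem_univ _, h1⟩, mem_univ _, mem_univ _, h2⟩)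
    (fun i => by
      rw [hN]
      refine hpc.gap_mul_Ncl_le.trans (Nat.cast_le.2 (card_le_card fun e he => ?_))
      refine mem_filter.2 ⟨mem_univ _, lt_of_not_ge fun h => ?_⟩
      exact (mem_sdiff.1 he).2 (mem_filter.2 ⟨mem_univ _, h⟩))
    (fun e he i hi hc => by
      refine hg e he (s0 * 2 ^ i) ?_ (cls_eq_iff.1 hc)
      have h1 : 0 < s0 * 2 ^ i := by positivity
      rw [pow_add, ← mul_assoc] at hi
      nlinarith)
  refine key.trans (mul_le_mul_of_nonneg_right ?_ hW)
  gcongr

/-- the geometric claim implies Lemma B -/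
theorem lemmaB_of {C : ℝ} (hC : 0 < C) (h : Claim C) : Outer.LemmaB :=
  ⟨C, hC, fun _ _ _ _ _ _ src tgt k gap K del p hk hgap hpc hK hdel hdel1 hCp hkp =>
    geomBound hC h src tgt k gap K del p hk hgap hpc hK hdel hdel1 hCp hkp⟩

end Crest.Agent.X37.LB
end

-- ▼ part X37/KS/PT
section

/-!
# Row 37, KS-A: the algorithm runs in polynomial time
-/

set_option autoImplicit false

namespace Crest.Agent.X37.KS

open Crest.Agent.Lib.PT Crest.Agent.X37.PT Finset

section
universe u
variable {α : Type u} [Enc α] {a : α → Inp} {z : α → St} {s : α → Bool} {e f i j : α → ℕ}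

@[fun_prop] theorem dim_pt (ha : PT a) :
    PT fun x => dim (a x) := by
  unfold dim; fun_prop

@[fun_prop] theorem dim_pb (ha : PT a) : PB fun x => dim (a x) := by
  unfold dim; fun_prop

@[fun_prop] theorem ne_pt (ha : PT a) :
    PT fun x => ne (a x) := by
  unfold ne; fun_prop

@[fun_prop] theorem ne_pb (ha : PT a) : PB fun x => ne (a x) := by
  unfold ne; fun_prop

@[fun_prop] theorem par_pt (ha : PT a) :
    PT fun x => par (a x) := by
  unfold par; fun_prop

@[fun_prop] theorem par_pb (ha : PT a) : PB fun x => par (a x) := by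
  unfold par; fun_prop

attribute [local irreducible] dim ne par

@[fun_prop] theorem blk_pt (ha : PT a) (hs : PT s) :
    PT fun x => blk (a x) (s x) := by
  unfold blk; fun_prop

attribute [local irreducible] blk

@[fun_prop] theorem Mq_pt (ha : PT a) (hs : PT s) (hi : PT i) (hj : PT j) :
    PT fun x => Mq (a x) (s x) (i x) (j x) := by
  unfold Mq; fun_prop

@[fun_prop] theorem wq_pt (ha : PT a) (hs : PT s) (he : PT e) :
    PT fun x => wq (a x) (s x) (e x) := by
  unfold wq; fun_prop

@[fun_prop] theorem bq_pt (ha : PT a) (hs : PT s) (he : PT e) (hi : PT i) :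
    PT fun x => bq (a x) (s x) (e x) (i x) := by
  unfold bq; fun_prop

attribute [local irreducible] Mq wq bq

@[fun_prop] theorem pM_pt (ha : PT a) :
    PT fun x => pM (a x) := by
  unfold pM; fun_prop

@[fun_prop] theorem pM_pb (ha : PT a) : PB fun x => pM (a x) := by
  unfold pM; fun_prop

attribute [local irreducible] pM

@[fun_prop] theorem pT_pt (ha : PT a) :
    PT fun x => pT (a x) := by
  unfold pT; fun_prop

@[fun_prop] theorem pT_pb (ha : PT a) : PB fun x => pT (a x) := by
  unfold pT; fun_prop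

attribute [local irreducible] pT

@[fun_prop] theorem pQ_pt (ha : PT a) :
    PT fun x => pQ (a x) := by
  unfold pQ; fun_prop

@[fun_prop] theorem pQ_pb (ha : PT a) : PB fun x => pQ (a x) := by
  unfold pQ; fun_prop

attribute [local irreducible] pQ

@[fun_prop] theorem pN_pt (ha : PT a) :
    PT fun x => pN (a x) := by
  unfold pN; fun_prop

@[fun_prop] theorem pN_pb (ha : PT a) : PB fun x => pN (a x) := by
  unfold pN; fun_prop

attribute [local irreducible] pN

@[fun_prop] theorem tauQ_pt (ha : PT a) :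
    PT fun x => tauQ (a x) := by
  unfold tauQ; fun_prop

@[fun_prop] theorem sgQ_pt (hs : PT s) :
    PT fun x => sgQ (s x) := by
  unfold sgQ; fun_prop

attribute [local irreducible] tauQ sgQ

@[fun_prop] theorem PQ_pt (ha : PT a) (hz : PT z) (hs : PT s) (hi : PT i) (hj : PT j) :
    PT fun x => PQ (a x) (z x) (s x) (i x) (j x) := by
  unfold PQ; fun_prop

attribute [local irreducible] PQ

@[fun_prop] theorem gQ_pt (ha : PT a) (hz : PT z) (hs : PT s) (he : PT e) (hf : PT f) :
    PT fun x => gQ (a x) (z x) (s x) (e x) (f x) := by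
  unfold gQ; fun_prop

attribute [local irreducible] gQ

@[fun_prop] theorem hQ_pt (ha : PT a) (hz : PT z) (hs : PT s) (he : PT e) (hf : PT f) :
    PT fun x => hQ (a x) (z x) (s x) (e x) (f x) := by
  unfold hQ; fun_prop

attribute [local irreducible] hQ

@[fun_prop] theorem yQ_pt (hz : PT z) (he : PT e) :
    PT fun x => yQ (z x) (e x) := by
  unfold yQ; fun_prop

attribute [local irreducible] yQ

@[fun_prop] theorem slQ_pt (ha : PT a) (hz : PT z) (he : PT e) :
    PT fun x => slQ (a x) (z x) (e x) := by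
  unfold slQ; fun_prop

attribute [local irreducible] slQ

@[fun_prop] theorem thQ_pt (ha : PT a) (hz : PT z) :
    PT fun x => thQ (a x) (z x) := by
  unfold thQ; fun_prop

attribute [local irreducible] thQ

@[fun_prop] theorem edg_pt (ha : PT a) (hi : PT i) :
    PT fun x => edg (a x) (i x) := by
  unfold edg; fun_prop

attribute [local irreducible] edg

@[fun_prop] theorem CQ_pt (ha : PT a) (hz : PT z) (he : PT e) (hi : PT i) :
    PT fun x => CQ (a x) (z x) (e x) (i x) := by
  unfold CQ; fun_prop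

attribute [local irreducible] CQ

@[fun_prop] theorem NQ_pt (ha : PT a) (hz : PT z) (hi : PT i) (hj : PT j) :
    PT fun x => NQ (a x) (z x) (i x) (j x) := by
  unfold NQ; fun_prop

attribute [local irreducible] NQ

@[fun_prop] theorem nQ_pt (ha : PT a) (hz : PT z) (hj : PT j) (hi : PT i) :
    PT fun x => nQ (a x) (z x) (j x) (i x) := by
  unfold nQ; fun_prop

attribute [local irreducible] nQ

@[fun_prop] theorem cQ_pt (ha : PT a) (hz : PT z) (hj : PT j) :
    PT fun x => cQ (a x) (z x) (j x) := by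
  unfold cQ; fun_prop

attribute [local irreducible] cQ

@[fun_prop] theorem xiQ_pt (ha : PT a) (hz : PT z) (hj : PT j) (he : PT e) :
    PT fun x => xiQ (a x) (z x) (j x) (e x) := by
  unfold xiQ; fun_prop

@[fun_prop] theorem rhoQ_pt (ha : PT a) (hz : PT z) (hj : PT j) (he : PT e) :
    PT fun x => rhoQ (a x) (z x) (j x) (e x) := by
  unfold rhoQ; fun_prop

attribute [local irreducible] xiQ rhoQ

@[fun_prop] theorem cand1_pt (ha : PT a) (hz : PT z) (hf : PT f) :
    PT fun x => cand1 (a x) (z x) (f x) := by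
  unfold cand1; fun_prop

@[fun_prop] theorem cand2_pt (ha : PT a) (hz : PT z) (hs : PT s) (hj : PT j) :
    PT fun x => cand2 (a x) (z x) (s x) (j x) := by
  unfold cand2; fun_prop

attribute [local irreducible] cand1 cand2

@[fun_prop] theorem cands_pt (ha : PT a) (hz : PT z) :
    PT fun x => cands (a x) (z x) := by
  unfold cands; fun_prop

attribute [local irreducible] cands

@[fun_prop] theorem best_pt (ha : PT a) (hz : PT z) :
    PT fun x => best (a x) (z x) := by
  unfold best; fun_prop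

@[fun_prop] theorem freeze_pt (ha : PT a) (hz : PT z) :
    PT fun x => freeze (a x) (z x) := by
  unfold freeze; fun_prop

attribute [local irreducible] best freeze

@[fun_prop] theorem round_pt (ha : PT a) (hz : PT z) :
    PT fun x => round (a x) (z x) := by
  unfold round; fun_prop

@[fun_prop] theorem start_pt (ha : PT a) :
    PT fun x => start (a x) := by
  unfold start; fun_prop

@[fun_prop] theorem signs_pt (ha : PT a) (hz : PT z) :
    PT fun x => signs (a x) (z x) := by
  unfold signs; fun_prop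

end

/-- **The running times of KS-A.** -/
theorem ptStatement : PTStatement :=
  ⟨start_pt PT.id, round_pt PT.id.fst PT.id.snd, signs_pt PT.id.fst PT.id.snd, pN_pt PT.id,
    pN_pb PT.id, ne_pb PT.id, pQ_pt PT.id⟩

end Crest.Agent.X37.KS
end

-- ▼ part X37/KS/OfDrop
section

/-!
# Row 37, KS-A: the statement from the two remaining facts on directions
-/

set_option autoImplicit false

namespace Crest.Agent.X37.KS

theorem ks_of_drop (hN : NmPos) (hD : ExistsDrop) : KSStatement :=
  ks_of stepFeas hN hD ptStatement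

end Crest.Agent.X37.KS
end

-- ▼ part X37/KS/Main
section

/-!
# Row 37, KS-A: the unconditional statement
-/

set_option autoImplicit false

namespace Crest.Agent.X37.KS

theorem ksStatement : KSStatement := ks_of_drop nmPos existsDrop

end Crest.Agent.X37.KS
end

-- ▼ part X37/Half/Defs
section

/-!
# Row 37: the halving step, interfaces

`MainStatement` (steps (0)-(3)), `LevStatement`, `LevPC` (step (4a), (4b)) and `KSStatement` are
consumed by the halving step `HalfStatement`, which the cascade turns into `CoreStatement`.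
All bounds on resistances and leverages are stated without inverses.
-/

set_option autoImplicit false

namespace Crest.Agent.X37.Half

open Crest.Agent.Lib.PT Crest.Agent.X37.IO Crest.Agent.X37.PT Matrix Finset
open Crest.CombinatoricsR.Multigraph

/-- the edges selected by a mask -/
def mset (es : List (ℕ × ℕ)) (mask : List Bool) : Finset (Fin es.length) :=
  univ.filter fun e => mask.getD e false = true

/-- the energy of `x` for a table of conductances (sum over ordered pairs) -/
noncomputable def enD (n : ℕ) (D : List (List ℚ)) (x : Fin n → ℝ) : ℝ :=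
  ∑ u : Fin n, ∑ v : Fin n, ((ent D u v : ℚ) : ℝ) * (x u - x v) ^ 2

/-- the indicator vector of a set -/
def ind {n : ℕ} (S : Finset (Fin n)) : Fin n → ℝ := fun v => if v ∈ S then 1 else 0

/-- **The main lemma** (greedy set, inner and outer loop): from a `(k + r ^ 11)`-partition-connected
edge list compute a `k`-partition-connected set `F` of edges and a cut-dominated table `D` of
conductances in which all edges of `F` have effective resistance at most `C / r ^ 3`. -/
def MainStatement : Prop :=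
  ∃ (C r0 : ℕ) (main : Un × Un × ℕ × List (ℕ × ℕ) → List Bool × List (List ℚ)), PT main ∧
    ∀ (n r k : ℕ) (es : List (ℕ × ℕ)) (h : Loopless n es), 2 ≤ n → r0 ≤ r → r ^ 11 ≤ k →
      k ≤ r ^ 13 → PC (srcF h) (tgtF h) ((k : ℝ) + (r : ℝ) ^ 11) univ →
      PC (srcF h) (tgtF h) k (mset es (main (⟨n⟩, ⟨r⟩, k, es)).1) ∧
      (∀ u v : Fin n, 0 ≤ ent (main (⟨n⟩, ⟨r⟩, k, es)).2 u v) ∧
      (∀ S : Finset (Fin n), enD n (main (⟨n⟩, ⟨r⟩, k, es)).2 (ind S) ≤
        (cutEdges (srcF h) (tgtF h) univ S).card) ∧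
      ∀ e ∈ mset es (main (⟨n⟩, ⟨r⟩, k, es)).1, ∀ x : Fin n → ℝ,
        (r : ℝ) ^ 3 * (x (srcF h e) - x (tgtF h e)) ^ 2 ≤
          C * enD n (main (⟨n⟩, ⟨r⟩, k, es)).2 x



/-- one block of a discrepancy instance: the matrix `M`, the vectors (row `e` is the vector of
the index `e`) and their weights -/
abbrev Blk : Type := List (List ℚ) × List (List ℚ) × List ℚ

/-- the matrix of a block -/
def Blk.mat (d : ℕ) (B : Blk) : Matrix (Fin d) (Fin d) ℝ := matR d (ent B.1)

/-- vector number `e` of a block -/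
def Blk.vec (d : ℕ) (B : Blk) (e : ℕ) : Fin d → ℝ := fun i => ((ent B.2.1 e i : ℚ) : ℝ)

/-- the rank-one form `w e * ⟨v e, x⟩ ^ 2` -/
noncomputable def Blk.term (d : ℕ) (B : Blk) (e : ℕ) (x : Fin d → ℝ) : ℝ :=
  ((vent B.2.2 e : ℚ) : ℝ) * (B.vec d e ⬝ᵥ x) ^ 2

/-- the quadratic form of the matrix of a block -/
noncomputable def Blk.form (d : ℕ) (B : Blk) (x : Fin d → ℝ) : ℝ := x ⬝ᵥ B.mat d *ᵥ x

/-- the hypotheses on a block: `M` positive definite, `∑ w v vᵀ ≤ M`, each `w v vᵀ ≤ ε M` -/
structure Blk.OK (d m : ℕ) (ε : ℝ) (B : Blk) : Prop where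
  pd : (B.mat d).PosDef
  w_nonneg : ∀ e : Fin m, 0 ≤ vent B.2.2 e
  sum_le : ∀ x, ∑ e : Fin m, B.term d e x ≤ B.form d x
  lev : ∀ (e : Fin m) (x : Fin d → ℝ), B.term d e x ≤ ε * B.form d x

/-- the sign given by a mask -/
def sgn (mask : List Bool) (e : ℕ) : ℝ := if mask.getD e false = true then 1 else -1

/-- **Two-block discrepancy theorem**, algorithmic form. -/
def KSStatement : Prop :=
  ∃ (c : ℕ) (ks : Un × Un × Un × Blk × Blk → List Bool), 1 ≤ c ∧ PT ks ∧
    ∀ (d m R : ℕ) (B₁ B₂ : Blk), 1 ≤ R → B₁.OK d m (1 / ((c : ℝ) * (R : ℝ) ^ 2)) →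
      B₂.OK d m (1 / ((c : ℝ) * (R : ℝ) ^ 2)) → ∀ x : Fin d → ℝ,
      ∑ e : Fin m, sgn (ks (⟨d⟩, ⟨m⟩, ⟨R⟩, B₁, B₂)) e * B₁.term d e x ≤ c / R * B₁.form d x ∧
      -∑ e : Fin m, sgn (ks (⟨d⟩, ⟨m⟩, ⟨R⟩, B₁, B₂)) e * B₂.term d e x ≤ c / R * B₂.form d x

/-- partition connectivity of an edge list on the vertices `0, …, n - 1` -/
def PCL (n : ℕ) (t : ℝ) (es : List (ℕ × ℕ)) : Prop :=
  ∀ f : ℕ → ℕ, t * ((((range n).image f).card : ℝ) - 1) ≤
    (es.countP fun e => decide (f e.1 ≠ f e.2) : ℕ)

/-- **One halving step.** -/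
def HalfStatement : Prop :=
  ∃ (A r0 : ℕ) (half : Un × Un × ℕ × List (ℕ × ℕ) → List (ℕ × ℕ)), PT half ∧
    ∀ (n r t : ℕ) (es : List (ℕ × ℕ)), Loopless n es → 2 ≤ n → r0 ≤ r → r ^ 12 ≤ t →
      t ≤ r ^ 13 → PCL n t es →
      (half (⟨n⟩, ⟨r⟩, t, es)).Sublist es ∧
      PCL n ((1 - (A : ℝ) / r) * t / 2) (half (⟨n⟩, ⟨r⟩, t, es)) ∧
      ∀ S, Proper n S →
        (cutL (half (⟨n⟩, ⟨r⟩, t, es)) S : ℝ) ≤ (1 + (A : ℝ) / r) / 2 * cutL es S

end Crest.Agent.X37.Half
end

-- ▼ part X37/Half/Bridge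
section

/-!
# Row 37: masks, sublists and partition connectivity of lists
-/

set_option autoImplicit false

namespace Crest.Agent.X37.Half

open Crest.Agent.Lib.PT Crest.Agent.X37.IO Finset
open Crest.CombinatoricsR.Multigraph

/-- the edges selected by a mask, as a list -/
def sel (es : List (ℕ × ℕ)) (mask : List Bool) : List (ℕ × ℕ) :=
  ((List.range es.length).filter fun i => mask.getD i false).map fun i => es.getD i (0, 0)

theorem map_getD_range (es : List (ℕ × ℕ)) :
    (List.range es.length).map (fun i => es.getD i (0, 0)) = es := by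
  refine List.ext_getElem (by simp) fun i h1 h2 => ?_
  simp [List.getD_eq_getElem?_getD, h2]

theorem sel_sublist (es : List (ℕ × ℕ)) (mask : List Bool) : (sel es mask).Sublist es := by
  conv_rhs => rw [← map_getD_range es]
  exact List.filter_sublist.map _

@[fun_prop] theorem sel_pt {α : Type} [Enc α] {es : α → List (ℕ × ℕ)} {mask : α → List Bool}
    (h1 : PT es) (h2 : PT mask) : PT fun a => sel (es a) (mask a) := by
  unfold sel; fun_prop

theorem countP_sel (es : List (ℕ × ℕ)) (mask : List Bool) (p : ℕ × ℕ → Bool) :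
    (sel es mask).countP p =
      ((Inner.maskF es.length mask).filter fun i => p (es.get i) = true).card := by
  rw [sel, List.countP_map, List.countP_filter, List.countP_eq_length_filter,
    ← List.toFinset_card_of_nodup (List.nodup_range.filter _)]
  symm
  refine card_bij (fun i _ => (i : ℕ)) ?_ (fun i _ j _ h => Fin.ext h) ?_
  · intro i hi
    simp only [Inner.maskF, mem_filter, mem_univ, true_and] at hi
    simp only [List.mem_toFinset, List.mem_filter, List.mem_range, Function.comp_apply,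
      Bool.and_eq_true]
    refine ⟨i.2, ?_, hi.1⟩
    rw [List.getD_eq_getElem _ _ i.2]
    exact hi.2
  · intro i hi
    simp only [List.mem_toFinset, List.mem_filter, List.mem_range, Function.comp_apply,
      Bool.and_eq_true] at hi
    refine ⟨⟨i, hi.1⟩, ?_, rfl⟩
    simp only [Inner.maskF, mem_filter, mem_univ, true_and]
    refine ⟨hi.2.2, ?_⟩
    have := hi.2.1
    rwa [List.getD_eq_getElem _ _ hi.1] at this

theorem cutL_sel {n : ℕ} {es : List (ℕ × ℕ)} (h : Loopless n es) (mask : List Bool)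
    (S : Finset (Fin n)) : cutL (sel es mask) (vals S) =
      (cutEdges (srcF h) (tgtF h) (Inner.maskF es.length mask) S).card := by
  rw [cutL, countP_sel, cutEdges]
  congr 1
  refine Finset.filter_congr fun i _ => ?_
  rw [crossB_iff, ← val_mem_vals (i := srcF h i), ← val_mem_vals (i := tgtF h i)]
  rfl

theorem image_range_eq {n : ℕ} (f : ℕ → ℕ) :
    (range n).image f = (univ : Finset (Fin n)).image fun v : Fin n => f v := by
  ext x
  simp only [mem_image, mem_range, mem_univ, true_and]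
  exact ⟨fun ⟨a, ha, e⟩ => ⟨⟨a, ha⟩, e⟩, fun ⟨a, e⟩ => ⟨a, a.2, e⟩⟩

/-- a counting function that agrees with the crossing edges of `A` -/
theorem pc_iff_of_count {n : ℕ} {es : List (ℕ × ℕ)} (h : Loopless n es) (t : ℝ)
    (A : Finset (Fin es.length)) (l : List (ℕ × ℕ))
    (hl : ∀ p : ℕ × ℕ → Bool, l.countP p = (A.filter fun i => p (es.get i) = true).card) :
    PCL n t l ↔ PC (srcF h) (tgtF h) t A := by
  have key : ∀ f : ℕ → ℕ, (l.countP fun e => decide (f e.1 ≠ f e.2)) =
      (cross (srcF h) (tgtF h) A univ fun v : Fin n => f v).card := by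
    intro f
    rw [hl, cross]
    congr 1
    refine Finset.filter_congr fun i _ => ?_
    simp [srcF, tgtF]
  constructor
  · intro H g
    obtain ⟨f, e⟩ : ∃ f : ℕ → ℕ, (fun v : Fin n => f v) = fun v : Fin n => (g v : ℕ) :=
      ⟨fun v => if hv : v < n then (g ⟨v, hv⟩ : ℕ) else 0, by funext v; simp⟩
    have H1 := H f
    rw [key, image_range_eq, e] at H1
    have e1 : ∀ u v : Fin n, ((g u : ℕ) = (g v : ℕ)) ↔ g u = g v := fun u v => Fin.val_inj
    rw [card_image_congr (S := univ) (f := fun v : Fin n => (g v : ℕ)) (g := g)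
      (fun u _ v _ => e1 u v), cross_congr (S := univ) (f := fun v : Fin n => (g v : ℕ)) (g := g)
      (fun u _ v _ => e1 u v)] at H1
    exact H1
  · intro H f
    rw [key, image_range_eq]
    exact H.label _

theorem pcl_iff {n : ℕ} {es : List (ℕ × ℕ)} (h : Loopless n es) (t : ℝ) :
    PCL n t es ↔ PC (srcF h) (tgtF h) t univ :=
  pc_iff_of_count h t univ es fun p => countP_eq_card es p

theorem pcl_sel {n : ℕ} {es : List (ℕ × ℕ)} (h : Loopless n es) (t : ℝ) (mask : List Bool) :
    PCL n t (sel es mask) ↔ PC (srcF h) (tgtF h) t (Inner.maskF es.length mask) :=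
  pc_iff_of_count h t _ _ fun p => countP_sel es mask p


theorem PCL.of_le {n : ℕ} {t t' : ℝ} {es : List (ℕ × ℕ)} (h : PCL n t es) (hn : 1 ≤ n)
    (ht : t' ≤ t) : PCL n t' es := by
  intro f
  refine le_trans (mul_le_mul_of_nonneg_right ht ?_) (h f)
  have : 1 ≤ ((range n).image f).card :=
    card_pos.2 ((nonempty_range_iff.2 (by omega)).image f)
  have : (1 : ℝ) ≤ (((range n).image f).card : ℝ) := by exact_mod_cast this
  linarith

/-- a `t`-partition-connected list has cuts of size at least `t` -/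
theorem PCL.le_cutL {n : ℕ} {t : ℝ} {es : List (ℕ × ℕ)} (h : PCL n t es) {S : Finset ℕ}
    (hS : Proper n S) : t ≤ cutL es S := by
  have H := h fun v => if v ∈ S then 1 else 0
  have e1 : (range n).image (fun v => if v ∈ S then 1 else 0) = ({0, 1} : Finset ℕ) := by
    ext x
    simp only [mem_image, mem_range, mem_insert, mem_singleton]
    constructor
    · rintro ⟨a, -, rfl⟩
      split_ifs <;> simp
    · rintro (rfl | rfl)
      · obtain ⟨a, ha, ha'⟩ := exists_of_ssubset (ssubset_of_subset_of_ne hS.1 hS.2.2)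
        exact ⟨a, mem_range.1 ha, if_neg ha'⟩
      · obtain ⟨a, ha⟩ := hS.2.1
        exact ⟨a, mem_range.1 (hS.1 ha), if_pos ha⟩
  have e2 : (es.countP fun e => decide ((if e.1 ∈ S then 1 else 0 : ℕ) ≠
      if e.2 ∈ S then 1 else 0)) = cutL es S := by
    refine List.countP_congr fun e _ => ?_
    rw [crossB_iff]
    by_cases h1 : e.1 ∈ S <;> by_cases h2 : e.2 ∈ S <;> simp [h1, h2]
  rw [e1, e2] at H
  norm_num at H
  linarith

end Crest.Agent.X37.Half
end

-- ▼ part X37/Lev/Math
section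

/-!
# Row 37, leverage balancing: determinants of grounded Laplacians

`lap src tgt r w A` is the weighted Laplacian of the edge set `A`, grounded at the vertex `r`.
For weights `ρ ^ k e` on a `τ`-partition-connected edge set, its determinant is at least
`ρ ^ s` with `τ * s ≤ ∑ k e` (a spanning tree grown by Prim's rule).
-/

set_option autoImplicit false
set_option linter.unusedSectionVars false

open Matrix Finset

namespace Crest.Agent.X37.Lev

open Crest.Agent.X37.Inner

variable {V E : Type} [Fintype V] [DecidableEq V] [DecidableEq E]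

/-- Partition connectivity of the edge set `A`, partitions being given by label maps. -/
def PCL (src tgt : E → V) (τ : ℝ) (A : Finset E) : Prop :=
  ∀ f : V → V, τ * (((univ.image f).card : ℝ) - 1) ≤
    ((A.filter fun e => f (src e) ≠ f (tgt e)).card : ℝ)

theorem pcl_iff {src tgt : E → V} {τ : ℝ} {A : Finset E} : PCL src tgt τ A ↔ PC src tgt τ A := by
  simp [PCL, PC, PCOn, cross]

/-- The energy of `x` on the edge set `A`. -/
def en (src tgt : E → V) (w : E → ℝ) (A : Finset E) (x : V → ℝ) : ℝ :=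
  ∑ e ∈ A, w e * (x (src e) - x (tgt e)) ^ 2

/-- The weighted Laplacian of `A` grounded at `r`. -/
def lap (src tgt : E → V) (r : V) (w : E → ℝ) (A : Finset E) : Matrix V V ℝ :=
  vecMulVec (Pi.single r 1) (Pi.single r 1) +
    ∑ e ∈ A, w e • vecMulVec (bv (src e) (tgt e)) (bv (src e) (tgt e))

variable {src tgt : E → V} {r : V} {w : E → ℝ} {A : Finset E}

theorem en_nonneg (hw : ∀ e ∈ A, 0 ≤ w e) (x : V → ℝ) : 0 ≤ en src tgt w A x :=
  sum_nonneg fun e he => mul_nonneg (hw e he) (sq_nonneg _)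

theorem qf_lap (x : V → ℝ) : qf (lap src tgt r w A) x = x r ^ 2 + en src tgt w A x := by
  rw [lap, qf_add, qf_sum, qf_vecMulVec, en]
  simp only [qf_smul, qf_vecMulVec, bv_dot]
  simp

theorem lap_symm : (lap src tgt r w A)ᵀ = lap src tgt r w A := by
  simp [lap, transpose_sum, transpose_vecMulVec]

/-- A partition-connected edge set is connected. -/
theorem PCL.const {τ : ℝ} (h : PCL src tgt τ A) (hτ : 0 < τ) {β : Type} {x : V → β}
    (hx : ∀ e ∈ A, x (src e) = x (tgt e)) (u v : V) : x u = x v := by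
  classical
  by_contra hne
  have huv : u ≠ v := fun e => hne (by rw [e])
  have h1 := h fun y => if x y = x u then u else v
  have h2 : (A.filter fun e => (if x (src e) = x u then u else v) ≠
      (if x (tgt e) = x u then u else v)) = ∅ := by
    refine filter_eq_empty_iff.2 fun e he => ?_
    rw [hx e he]; simp
  have h3 : ({u, v} : Finset V) ⊆ univ.image fun y => if x y = x u then u else v := by
    intro y hy
    rcases mem_insert.1 hy with rfl | hy
    · exact mem_image.2 ⟨y, mem_univ _, by simp⟩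
    · rw [mem_singleton.1 hy]
      exact mem_image.2 ⟨v, mem_univ _, by simp [Ne.symm hne]⟩
  have h4 := card_le_card h3
  rw [card_pair huv] at h4
  rw [h2, card_empty] at h1
  have h5 : (2 : ℝ) ≤ ((univ.image fun y => if x y = x u then u else v).card : ℝ) := by
    exact_mod_cast h4
  push_cast at h1
  nlinarith

theorem eq_of_en_eq_zero (hw : ∀ e ∈ A, 0 < w e) {x : V → ℝ} (hx : en src tgt w A x ≤ 0) :
    ∀ e ∈ A, x (src e) = x (tgt e) := by
  intro e he
  have h0 : en src tgt w A x = 0 := le_antisymm hx (en_nonneg (fun e he => (hw e he).le) x)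
  have h1 := (sum_eq_zero_iff_of_nonneg fun e he =>
    mul_nonneg (hw e he).le (sq_nonneg (x (src e) - x (tgt e)))).1 h0 e he
  have h2 := (mul_eq_zero.1 h1).resolve_left (hw e he).ne'
  exact sub_eq_zero.1 (pow_eq_zero_iff two_ne_zero |>.1 h2)

theorem lap_posDef {τ : ℝ} (h : PCL src tgt τ A) (hτ : 0 < τ) (hw : ∀ e ∈ A, 0 < w e) :
    (lap src tgt r w A).PosDef := by
  refine posDef_of_qf lap_symm fun x hx => ?_
  rw [qf_lap]
  have h0 := en_nonneg (src := src) (tgt := tgt) (fun e he => (hw e he).le) x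
  by_contra hle
  have h1 : x r ^ 2 ≤ 0 := by linarith
  have h2 : x r = 0 := by nlinarith [sq_nonneg (x r)]
  have h3 := eq_of_en_eq_zero (src := src) (tgt := tgt) hw (x := x) (by nlinarith [sq_nonneg (x r)])
  exact hx (funext fun v => (h.const hτ h3 v r).trans h2)

/-- The matrix determinant lemma. -/
theorem det_add_smul_vecMulVec {M : Matrix V V ℝ} (hM : IsUnit M.det) (c : ℝ) (b : V → ℝ) :
    (M + c • vecMulVec b b).det = M.det * (1 + c * ip M b b) := by
  have h1 : c • vecMulVec b b = replicateCol Unit (c • b) * replicateRow Unit b := by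
    rw [← vecMulVec_eq, smul_vecMulVec]
  rw [h1, det_add_replicateCol_mul_replicateRow hM]
  congr 1
  rw [det_unique]
  simp only [Matrix.add_apply, one_apply_eq, ip, Matrix.mul_apply, replicateRow_apply,
    replicateCol_apply, dotProduct, mulVec, Pi.smul_apply, smul_eq_mul, sum_mul, mul_sum]
  congr 1
  rw [sum_comm]
  exact sum_congr rfl fun i _ => sum_congr rfl fun j _ => by ring

theorem posDef_add_smul {M : Matrix V V ℝ} (hM : M.PosDef) {c : ℝ} (hc : 0 ≤ c) (b : V → ℝ) :
    (M + c • vecMulVec b b).PosDef := by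
  refine hM.add_posSemidef (PosSemidef.smul ?_ hc)
  simpa using posSemidef_vecMulVec_self_star b

/-- Adding rank-one terms keeps positivity and increases the determinant. -/
theorem det_le_det_add_sum {M : Matrix V V ℝ} (hM : M.PosDef) (B : Finset E) (b : E → V → ℝ)
    (hw : ∀ e ∈ B, 0 ≤ w e) :
    (M + ∑ e ∈ B, w e • vecMulVec (b e) (b e)).PosDef ∧
      M.det ≤ (M + ∑ e ∈ B, w e • vecMulVec (b e) (b e)).det := by
  induction B using Finset.induction_on with
  | empty => simpa using hM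
  | insert e B he ih =>
    obtain ⟨h1, h2⟩ := ih fun e he => hw e (mem_insert_of_mem he)
    have h3 := hw e (mem_insert_self _ _)
    rw [sum_insert he, add_comm (w e • _), ← add_assoc]
    refine ⟨posDef_add_smul h1 h3 _, h2.trans ?_⟩
    rw [det_add_smul_vecMulVec ((isUnit_iff_isUnit_det _).1 h1.isUnit)]
    have h4 := mul_nonneg h3 (ip_nonneg h1 (b e))
    have h5 := h1.det_pos
    nlinarith

/-- Hanging a new vertex `v` on `u` by an edge of weight `c`. -/
theorem det_hang {M : Matrix V V ℝ} {u v : V} (huv : u ≠ v) (hr : ∀ j, M v j = 0)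
    (hc : ∀ i, M i v = 0) (c : ℝ) :
    (M + c • vecMulVec (bv v u) (bv v u)).det =
      c * (M + vecMulVec (Pi.single v 1) (Pi.single v 1)).det := by
  have hE : single u v (-1 : ℝ) * M = 0 := by
    ext i j
    by_cases hi : i = u
    · subst hi; simp [hr]
    · simp [single_mul_apply_of_ne _ _ _ _ _ hi]
  have hE' : M * single v u (-1 : ℝ) = 0 := by
    ext i j
    by_cases hj : j = u
    · subst hj; simp [hc]
    · simp [mul_single_apply_of_ne _ _ _ _ _ hj]
  have hP : transvection u v (-1 : ℝ) *ᵥ Pi.single v 1 = bv v u := by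
    ext i
    simp only [transvection, add_mulVec, one_mulVec, bv, single_mulVec, Pi.add_apply, Pi.sub_apply,
      Pi.single_apply, Function.update_apply]
    by_cases hi : i = u <;> simp [hi, sub_eq_add_neg]
  have hT : (transvection u v (-1 : ℝ))ᵀ = transvection v u (-1) := by
    simp [transvection]
  have h1 : M + c • vecMulVec (bv v u) (bv v u) = transvection u v (-1) *
      (M + c • vecMulVec (Pi.single v 1) (Pi.single v 1)) * transvection v u (-1) := by
    rw [Matrix.mul_add, Matrix.add_mul, Matrix.mul_smul, Matrix.smul_mul, mul_vecMulVec,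
      vecMulVec_mul, ← hT, vecMul_transpose, hP, hT]
    congr 1
    simp [transvection, Matrix.add_mul, Matrix.mul_add, hE, hE']
  set N : Matrix V V ℝ := M + vecMulVec (Pi.single v 1) (Pi.single v 1) with hN
  have h2 : M + c • vecMulVec (Pi.single v 1) (Pi.single v 1) = updateRow N v (c • N v) := by
    ext i j
    by_cases hi : i = v
    · subst hi; simp [hN, hr, vecMulVec_apply]
    · simp [hN, vecMulVec_apply, hi]
  rw [h1, det_mul, det_mul, det_transvection_of_ne _ _ huv, det_transvection_of_ne _ _ huv.symm,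
    h2, det_updateRow_smul, updateRow_eq_self]
  ring

end Crest.Agent.X37.Lev
end

-- ▼ part X37/Lev/Prim
section

/-!
# Row 37, leverage balancing: the lower bound for the determinant and the step count
-/

set_option autoImplicit false
set_option linter.unusedSectionVars false

open Matrix Finset

namespace Crest.Agent.X37.Lev

open Crest.Agent.X37.Inner

variable {V E : Type} [Fintype V] [DecidableEq V] [DecidableEq E]
variable {src tgt : E → V} {r : V} {A : Finset E}

/-- The state of Prim's rule: a tree `T` on the vertex set `S`. -/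
structure PrimInv (src tgt : E → V) (r : V) (A : Finset E) (k : E → ℕ) (w : E → ℝ)
    (S : Finset V) (T : Finset E) : Prop where
  root : r ∈ S
  sub : T ⊆ A
  ends : ∀ e ∈ T, src e ∈ S ∧ tgt e ∈ S
  det : (lap src tgt r w T + ∑ x ∈ Sᶜ, vecMulVec (Pi.single x (1 : ℝ)) (Pi.single x 1)).det =
    ∏ e ∈ T, w e
  lab : ∀ j : ℕ, ∃ f : V → V, (∀ x, f x ∈ S) ∧ (∀ x, ∃ y ∈ S, f y = f x) ∧
    (∀ e ∈ A, k e ≤ j → f (src e) = f (tgt e)) ∧
    (univ.image f).card = 1 + (T.filter fun e => j < k e).card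

theorem primInv_start (k : E → ℕ) (w : E → ℝ) : PrimInv src tgt r A k w {r} ∅ where
  root := mem_singleton_self r
  sub := empty_subset _
  ends := fun _ h => absurd h (notMem_empty _)
  det := by
    have : lap src tgt r w ∅ + ∑ x ∈ ({r} : Finset V)ᶜ,
        vecMulVec (Pi.single x (1 : ℝ)) (Pi.single x 1) = 1 := by
      rw [lap, sum_empty, add_zero, ← sum_singleton
        (fun x => vecMulVec (Pi.single x (1 : ℝ)) (Pi.single x (1 : ℝ))) r, sum_add_sum_compl]
      ext i j
      simp [Matrix.sum_apply, vecMulVec_apply, Pi.single_apply, one_apply]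
    rw [this, det_one, prod_empty]
  lab := fun j => ⟨fun _ => r, fun _ => mem_singleton_self r,
    fun _ => ⟨r, mem_singleton_self r, rfl⟩, fun _ _ _ => rfl, by
      rw [image_const ⟨r, mem_univ r⟩]; simp⟩

theorem PrimInv.step {k : E → ℕ} {w : E → ℝ} {S : Finset V} {T : Finset E}
    (h : PrimInv src tgt r A k w S T) {e : E} {u v : V} (he : e ∈ A) (hu : u ∈ S) (hv : v ∉ S)
    (huv : (src e = u ∧ tgt e = v) ∨ (src e = v ∧ tgt e = u))
    (hmin : ∀ e' ∈ A, ¬ (src e' ∈ S ↔ tgt e' ∈ S) → k e ≤ k e') :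
    PrimInv src tgt r A k w (insert v S) (insert e T) := by
  have heT : e ∉ T := fun hT => by
    obtain ⟨h1, h2⟩ := h.ends e hT
    rcases huv with ⟨_, h3⟩ | ⟨h3, _⟩
    · exact hv (h3 ▸ h2)
    · exact hv (h3 ▸ h1)
  have hne : u ≠ v := fun e => hv (e ▸ hu)
  refine ⟨mem_insert_of_mem h.root, insert_subset he h.sub, ?_, ?_, fun j => ?_⟩
  · intro e' he'
    rcases mem_insert.1 he' with rfl | he'
    · rcases huv with ⟨h1, h2⟩ | ⟨h1, h2⟩ <;> simp [h1, h2, hu]
    · exact ⟨mem_insert_of_mem (h.ends e' he').1, mem_insert_of_mem (h.ends e' he').2⟩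
  · set M : Matrix V V ℝ := lap src tgt r w T +
      ∑ x ∈ (insert v S)ᶜ, vecMulVec (Pi.single x (1 : ℝ)) (Pi.single x 1) with hM
    have hrv : v ≠ r := fun e => hv (e ▸ h.root)
    have hb : ∀ e' ∈ T, bv (src e') (tgt e') v = 0 := by
      intro e' he'
      have h1 : v ≠ src e' := fun e => hv (e ▸ (h.ends e' he').1)
      have h2 : v ≠ tgt e' := fun e => hv (e ▸ (h.ends e' he').2)
      simp [bv, h1, h2]
    have hx : ∀ x ∈ (insert v S)ᶜ, (Pi.single x (1 : ℝ) : V → ℝ) v = 0 := by
      intro x hx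
      have : v ≠ x := fun e => (mem_compl.1 hx) (e ▸ mem_insert_self _ _)
      simp [this]
    have hr : ∀ j, M v j = 0 := by
      intro j
      simp only [hM, lap, Matrix.add_apply, Matrix.sum_apply, Matrix.smul_apply, vecMulVec_apply]
      rw [sum_eq_zero fun e' he' => by rw [hb e' he']; simp,
        sum_eq_zero fun x hx' => by rw [hx x hx']; simp]
      simp [hrv]
    have hc : ∀ i, M i v = 0 := by
      intro i
      simp only [hM, lap, Matrix.add_apply, Matrix.sum_apply, Matrix.smul_apply, vecMulVec_apply]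
      rw [sum_eq_zero fun e' he' => by rw [hb e' he']; simp,
        sum_eq_zero fun x hx' => by rw [hx x hx']; simp]
      simp [hrv]
    have hbe : vecMulVec (bv (src e) (tgt e)) (bv (src e) (tgt e)) =
        vecMulVec (bv v u) (bv v u) := by
      rcases huv with ⟨h1, h2⟩ | ⟨h1, h2⟩
      · rw [h1, h2]; ext i j; simp only [vecMulVec_apply, bv, Pi.sub_apply]; ring
      · rw [h1, h2]
    have h1 : lap src tgt r w (insert e T) +
        ∑ x ∈ (insert v S)ᶜ, vecMulVec (Pi.single x (1 : ℝ)) (Pi.single x 1) =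
        M + w e • vecMulVec (bv v u) (bv v u) := by
      rw [hM, lap, lap, sum_insert heT, hbe]; abel
    have h2 : Sᶜ = insert v (insert v S)ᶜ := by
      ext x
      by_cases hx : x = v
      · subst hx; simp [hv]
      · simp [hx]
    have h3 : M + vecMulVec (Pi.single v 1) (Pi.single v 1) = lap src tgt r w T +
        ∑ x ∈ Sᶜ, vecMulVec (Pi.single x (1 : ℝ)) (Pi.single x 1) := by
      rw [h2, sum_insert (by simp), hM]; abel
    rw [h1, det_hang hne hr hc, h3, h.det, prod_insert heT]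
  · obtain ⟨f, hf1, hf2, hf3, hf4⟩ := h.lab j
    by_cases hj : j < k e
    · refine ⟨fun x => if x ∈ S then f x else v, fun x => ?_, fun x => ?_, fun e' he' hk => ?_, ?_⟩
      · by_cases hx : x ∈ S <;> simp [hx, hf1]
      · by_cases hx : x ∈ S
        · exact ⟨x, mem_insert_of_mem hx, rfl⟩
        · exact ⟨v, mem_insert_self _ _, by simp [hx, hv]⟩
      · have hiff : src e' ∈ S ↔ tgt e' ∈ S := by
          by_contra hn
          have := hmin e' he' hn
          omega
        by_cases hx : src e' ∈ S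
        · simp [hx, hiff.1 hx, hf3 e' he' hk]
        · simp [hx, mt hiff.2 hx]
      · have h1 : (univ.image fun x => if x ∈ S then f x else v) = insert v (univ.image f) := by
          ext y
          simp only [mem_image, mem_univ, true_and, mem_insert]
          constructor
          · rintro ⟨x, rfl⟩
            by_cases hx : x ∈ S
            · exact Or.inr ⟨x, by simp [hx]⟩
            · exact Or.inl (by simp [hx])
          · rintro (rfl | ⟨x, rfl⟩)
            · exact ⟨y, by simp [hv]⟩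
            · obtain ⟨y, hy, hy'⟩ := hf2 x
              exact ⟨y, by simp [hy, hy']⟩
        have h2 : v ∉ univ.image f := by
          intro hm
          obtain ⟨x, _, hx⟩ := mem_image.1 hm
          exact hv (hx ▸ hf1 x)
        rw [h1, card_insert_of_notMem h2, hf4, filter_insert, if_pos hj,
          card_insert_of_notMem fun hm => heT (mem_filter.1 hm).1]
        omega
    · refine ⟨f, fun x => mem_insert_of_mem (hf1 x), fun x => ?_, hf3, ?_⟩
      · obtain ⟨y, hy, hy'⟩ := hf2 x
        exact ⟨y, mem_insert_of_mem hy, hy'⟩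
      · rw [hf4, filter_insert, if_neg hj]

theorem exists_primInv {τ : ℝ} (h : PCL src tgt τ A) (hτ : 0 < τ) (k : E → ℕ) (w : E → ℝ) :
    ∃ T, PrimInv src tgt r A k w univ T := by
  have key : ∀ d : ℕ, ∀ (S : Finset V) (T : Finset E), Sᶜ.card = d →
      PrimInv src tgt r A k w S T → ∃ T, PrimInv src tgt r A k w univ T := by
    intro d
    induction d with
    | zero =>
      intro S T hd hS
      have : S = univ := by rwa [card_eq_zero, compl_eq_empty_iff] at hd
      exact ⟨T, this ▸ hS⟩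
    | succ d ih =>
      intro S T hd hS
      obtain ⟨v₀, hv₀⟩ : Sᶜ.Nonempty := card_pos.1 (by omega)
      have hne : (A.filter fun e => ¬ (src e ∈ S ↔ tgt e ∈ S)).Nonempty := by
        by_contra hn
        have h1 := h.const hτ (x := fun v => v ∈ S) (fun e he => by
          by_contra hc
          exact hn ⟨e, mem_filter.2 ⟨he, fun hi => hc (propext hi)⟩⟩) r v₀
        exact (mem_compl.1 hv₀) (h1 ▸ hS.root)
      obtain ⟨e, he, hmin⟩ := exists_min_image _ k hne
      obtain ⟨heA, hcr⟩ := mem_filter.1 he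
      have hmin' : ∀ e' ∈ A, ¬ (src e' ∈ S ↔ tgt e' ∈ S) → k e ≤ k e' :=
        fun e' h1 h2 => hmin e' (mem_filter.2 ⟨h1, h2⟩)
      have hcard : ∀ v, v ∉ S → (insert v S)ᶜ.card = d := by
        intro v hv
        rw [compl_insert, card_erase_of_mem (mem_compl.2 hv), hd]; rfl
      by_cases hs : src e ∈ S
      · have ht : tgt e ∉ S := fun ht => hcr ⟨fun _ => ht, fun _ => hs⟩
        exact ih _ _ (hcard _ ht) (hS.step heA hs ht (Or.inl ⟨rfl, rfl⟩) hmin')
      · have ht : tgt e ∈ S := by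
          by_contra ht
          exact hcr ⟨fun h => absurd h hs, fun h => absurd h ht⟩
        exact ih _ _ (hcard _ hs) (hS.step heA ht hs (Or.inr ⟨rfl, rfl⟩) hmin')
  exact key _ _ _ rfl (primInv_start k w)

theorem sum_eq_sum_card (k : E → ℕ) (B : Finset E) {K : ℕ} (hK : ∀ e ∈ B, k e ≤ K) :
    ∑ e ∈ B, k e = ∑ j ∈ range K, (B.filter fun e => j < k e).card := by
  simp only [card_filter]
  rw [sum_comm]
  refine sum_congr rfl fun e he => ?_
  rw [← card_filter]
  have : (range K).filter (fun j => j < k e) = range (k e) := by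
    ext j
    have := hK e he
    simp only [mem_filter, mem_range]
    omega
  rw [this, card_range]

/-- **Lower bound for the determinant.** -/
theorem det_lap_ge {τ : ℝ} (h : PCL src tgt τ A) (hτ : 0 < τ) (k : E → ℕ) {ρ : ℝ} (hρ : 0 < ρ) :
    ∃ s : ℕ, τ * s ≤ (∑ e ∈ A, k e : ℕ) ∧ ρ ^ s ≤ (lap src tgt r (fun e => ρ ^ k e) A).det := by
  obtain ⟨T, hT⟩ := exists_primInv (r := r) h hτ k fun e => ρ ^ k e
  refine ⟨∑ e ∈ T, k e, ?_, ?_⟩
  · have hK : ∀ e ∈ A, k e ≤ A.sup k := fun e he => le_sup he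
    rw [sum_eq_sum_card k A hK, sum_eq_sum_card k T fun e he => hK e (hT.sub he)]
    push_cast
    rw [mul_sum]
    refine sum_le_sum fun j _ => ?_
    obtain ⟨f, _, _, hf3, hf4⟩ := hT.lab j
    have h1 := h f
    rw [hf4] at h1
    push_cast at h1
    have h2 : (A.filter fun e => f (src e) ≠ f (tgt e)).card ≤
        (A.filter fun e => j < k e).card := by
      refine card_le_card fun e he => ?_
      obtain ⟨h3, h4⟩ := mem_filter.1 he
      exact mem_filter.2 ⟨h3, lt_of_not_ge fun h5 => h4 (hf3 e h3 h5)⟩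
    have h3 : ((A.filter fun e => f (src e) ≠ f (tgt e)).card : ℝ) ≤
        (A.filter fun e => j < k e).card := by exact_mod_cast h2
    linarith
  · have h1 := hT.det
    rw [compl_univ, sum_empty, add_zero, prod_pow_eq_pow_sum] at h1
    have hpos : 0 < (lap src tgt r (fun e => ρ ^ k e) T).det := by rw [h1]; positivity
    have hpd : (lap src tgt r (fun e => ρ ^ k e) T).PosDef := by
      have hpsd : (lap src tgt r (fun e => ρ ^ k e) T).PosSemidef := by
        refine PosSemidef.of_dotProduct_mulVec_nonneg ?_ fun x => ?_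
        · rw [IsHermitian, conjTranspose_eq_transpose_of_trivial, lap_symm]
        · have h2 := qf_lap (src := src) (tgt := tgt) (r := r) (w := fun e => ρ ^ k e) (A := T) x
          have h3 := en_nonneg (src := src) (tgt := tgt) (w := fun e => ρ ^ k e) (A := T)
            (fun e _ => by positivity) x
          have h4 : 0 ≤ qf (lap src tgt r (fun e => ρ ^ k e) T) x := by rw [h2]; positivity
          simpa [qf] using h4
      exact hpsd.posDef_iff_isUnit.2 ((isUnit_iff_isUnit_det _).2 hpos.ne'.isUnit)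
    have h2 := (det_le_det_add_sum (w := fun e => ρ ^ k e) hpd (A \ T)
      (fun e => bv (src e) (tgt e)) fun e _ => by positivity).2
    rw [h1, lap, add_assoc, add_comm (∑ e ∈ T, _), sum_sdiff hT.sub] at h2
    exact h2

end Crest.Agent.X37.Lev
end

-- ▼ part X37/Lev/Pot
section

/-!
# Row 37, leverage balancing: the potential, and small leverage implies partition connectivity
-/

set_option autoImplicit false
set_option linter.unusedSectionVars false

open Matrix Finset

namespace Crest.Agent.X37.Lev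

open Crest.Agent.X37.Inner

variable {V E : Type} [Fintype V] [DecidableEq V] [DecidableEq E]
variable {src tgt : E → V} {r : V} {A : Finset E}

/-- The leverage of the edge `e`. -/
noncomputable def lev (src tgt : E → V) (r : V) (w : E → ℝ) (A : Finset E) (e : E) : ℝ :=
  w e * ip (lap src tgt r w A) (bv (src e) (tgt e)) (bv (src e) (tgt e))

/-- Matrix-free form of "all leverages are at most `lam`". -/
def LevOk (src tgt : E → V) (w : E → ℝ) (A : Finset E) (lam : ℝ) : Prop :=
  ∀ e ∈ A, ∀ x : V → ℝ, w e * (x (src e) - x (tgt e)) ^ 2 ≤ lam * en src tgt w A x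

theorem levOk_of_lev {τ lam : ℝ} {w : E → ℝ} (h : PCL src tgt τ A) (hτ : 0 < τ)
    (hw : ∀ e ∈ A, 0 < w e) (hl : ∀ e ∈ A, lev src tgt r w A e ≤ lam) :
    LevOk src tgt w A lam := by
  intro e he x
  have h1 := dot_sq_le (lap_posDef (r := r) h hτ hw) (bv (src e) (tgt e)) fun v => x v - x r
  rw [bv_dot, qf_lap] at h1
  have h2 : en src tgt w A (fun v => x v - x r) = en src tgt w A x := by simp [en]
  rw [h2, sub_self, sub_sub_sub_cancel_right] at h1
  have h3 := en_nonneg (src := src) (tgt := tgt) (fun e he => (hw e he).le) x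
  have h4 := mul_le_mul_of_nonneg_left h1 (hw e he).le
  have h5 := mul_le_mul_of_nonneg_right (hl e he) h3
  rw [lev] at h5
  nlinarith

/-- The state after `t` steps that all found a violated edge. -/
def Pot (src tgt : E → V) (r : V) (A : Finset E) (θ lam : ℝ) (t : ℕ) (k : E → ℕ) : Prop :=
  ∑ e ∈ A, k e = t ∧ (lap src tgt r (fun e => (1 - θ) ^ k e) A).det ≤
    Real.exp (Fintype.card V * (Fintype.card V + A.card) - θ * lam * t)

theorem pot_zero (θ lam : ℝ) : Pot src tgt r A θ lam 0 fun _ => 0 := by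
  refine ⟨by simp, ?_⟩
  have hb : ∀ (u v i : V), |bv u v i| ≤ 1 := by
    intro u v i
    simp only [bv, Pi.sub_apply, Pi.single_apply]
    split_ifs <;> simp
  have h1 : ∀ i j, (AbsoluteValue.abs (S := ℝ))
      (lap src tgt r (fun _ => (1 - θ) ^ 0) A i j) ≤ (A.card + 1 : ℝ) := by
    intro i j
    simp only [AbsoluteValue.abs_apply, lap, Matrix.add_apply, Matrix.sum_apply, pow_zero, one_smul,
      vecMulVec_apply]
    refine (abs_add_le _ _).trans ?_
    have h2 : |(Pi.single r (1 : ℝ) : V → ℝ) i * (Pi.single r (1 : ℝ) : V → ℝ) j| ≤ 1 := by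
      simp only [Pi.single_apply]
      split_ifs <;> simp
    have h3 : |∑ e ∈ A, bv (src e) (tgt e) i * bv (src e) (tgt e) j| ≤ A.card := by
      refine (abs_sum_le_sum_abs _ _).trans ?_
      refine (sum_le_card_nsmul A _ 1 fun e _ => ?_).trans (by simp)
      rw [abs_mul]
      exact mul_le_one₀ (hb _ _ _) (abs_nonneg _) (hb _ _ _)
    linarith
  have h2 := det_le h1
  rw [AbsoluteValue.abs_apply, nsmul_eq_mul] at h2
  refine (le_abs_self _).trans (h2.trans ?_)
  set n := Fintype.card V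
  have h3 : (n.factorial : ℝ) ≤ Real.exp n ^ n := by
    have h4 : (n.factorial : ℝ) ≤ (n : ℝ) ^ n := by exact_mod_cast Nat.factorial_le_pow n
    refine h4.trans (pow_le_pow_left₀ (Nat.cast_nonneg n) ?_ n)
    linarith [Real.add_one_le_exp (n : ℝ)]
  have h4 : (A.card + 1 : ℝ) ^ n ≤ Real.exp A.card ^ n :=
    pow_le_pow_left₀ (by positivity) (Real.add_one_le_exp _) n
  calc (n.factorial : ℝ) * (A.card + 1 : ℝ) ^ n ≤ Real.exp n ^ n * Real.exp A.card ^ n := by gcongr
    _ = _ := by
      rw [← mul_pow, ← Real.exp_add, ← Real.exp_nat_mul]; simp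

theorem Pot.step {τ θ lam : ℝ} {t : ℕ} {k k' : E → ℕ} (h : PCL src tgt τ A) (hτ : 0 < τ)
    (hθ : 0 < θ) (hθ' : θ < 1) (hP : Pot src tgt r A θ lam t k) {e : E} (he : e ∈ A)
    (hl : lam < lev src tgt r (fun e => (1 - θ) ^ k e) A e)
    (hk : ∀ f ∈ A, k' f = k f + if f = e then 1 else 0) : Pot src tgt r A θ lam (t + 1) k' := by
  have hρ : 0 < 1 - θ := by linarith
  refine ⟨?_, ?_⟩
  · rw [sum_congr rfl hk, sum_add_distrib, hP.1, sum_ite_eq' A e, if_pos he]
  · have hpd := lap_posDef (r := r) (w := fun e => (1 - θ) ^ k e) h hτ fun e _ => by positivity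
    have h1 : lap src tgt r (fun e => (1 - θ) ^ k' e) A =
        lap src tgt r (fun e => (1 - θ) ^ k e) A +
          (-(θ * (1 - θ) ^ k e)) • vecMulVec (bv (src e) (tgt e)) (bv (src e) (tgt e)) := by
      rw [lap, lap, add_assoc, ← add_sum_erase A _ he, ← add_sum_erase A _ he, hk e he, if_pos rfl]
      congr 1
      rw [add_right_comm, ← add_smul]
      congr 1
      · congr 1; ring
      · refine sum_congr rfl fun f hf => ?_
        rw [hk f (mem_of_mem_erase hf), if_neg (ne_of_mem_erase hf), add_zero]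
    rw [h1, det_add_smul_vecMulVec ((isUnit_iff_isUnit_det _).1 hpd.isUnit)]
    have h2 := Real.add_one_le_exp (-(θ * lam))
    have h3 : 1 + -(θ * (1 - θ) ^ k e) * ip (lap src tgt r (fun e => (1 - θ) ^ k e) A)
        (bv (src e) (tgt e)) (bv (src e) (tgt e)) ≤ Real.exp (-(θ * lam)) := by
      rw [lev] at hl
      nlinarith [mul_lt_mul_of_pos_left hl hθ]
    refine (mul_le_mul_of_nonneg_left h3 hpd.det_pos.le).trans ?_
    refine (mul_le_mul_of_nonneg_right hP.2 (Real.exp_pos _).le).trans ?_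
    rw [← Real.exp_add]
    push_cast
    exact le_of_eq (by congr 1; ring)

theorem Pot.bound {τ θ lam : ℝ} {t : ℕ} {k : E → ℕ} (h : PCL src tgt τ A) (hτ : 0 < τ)
    (hθ : 0 < θ) (hθ' : θ ≤ 1 / 2) (hlam : 1 + 4 * θ ≤ lam * τ) (hP : Pot src tgt r A θ lam t k) :
    2 * θ ^ 2 * t ≤ τ * (Fintype.card V * (Fintype.card V + A.card)) := by
  have hρ : 0 < 1 - θ := by linarith
  obtain ⟨s, hs1, hs2⟩ := det_lap_ge (r := r) h hτ k hρ
  rw [hP.1] at hs1
  have h1 : Real.exp (-(θ * (1 + 2 * θ))) ≤ 1 - θ := by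
    rw [Real.exp_neg, inv_le_iff_one_le_mul₀ (Real.exp_pos _)]
    have h2 := Real.add_one_le_exp (θ * (1 + 2 * θ))
    have h3 : 1 ≤ (1 - θ) * (θ * (1 + 2 * θ) + 1) := by nlinarith [sq_nonneg θ]
    nlinarith
  have h2 := ((pow_le_pow_left₀ (Real.exp_pos _).le h1 s).trans hs2).trans hP.2
  rw [← Real.exp_nat_mul, Real.exp_le_exp] at h2
  set N : ℝ := Fintype.card V * (Fintype.card V + A.card)
  have h3 := mul_le_mul_of_nonneg_left h2 hτ.le
  have ht : (0 : ℝ) ≤ t := Nat.cast_nonneg t
  have h4 := mul_le_mul_of_nonneg_right hs1 (show 0 ≤ θ * (1 + 2 * θ) by positivity)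
  have h5 := mul_le_mul_of_nonneg_right hlam (show 0 ≤ θ * t by positivity)
  nlinarith

theorem PCL.le_card {τ : ℝ} (h : PCL src tgt τ A) (hτ : 0 < τ) (hV : 2 ≤ Fintype.card V) :
    τ ≤ A.card := by
  have h1 := h id
  rw [image_id, card_univ] at h1
  have h2 : ((A.filter fun e => id (src e) ≠ id (tgt e)).card : ℝ) ≤ A.card := by
    exact_mod_cast card_filter_le _ _
  have h3 : (2 : ℝ) ≤ Fintype.card V := by exact_mod_cast hV
  nlinarith

/-! ### Small leverage implies partition connectivity -/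

/-- Counting by the trace. -/
theorem card_le_of_lev {I : Type} [Fintype I] [DecidableEq I] {B : Finset E} {w : E → ℝ}
    {c : E → I → ℝ} {lam : ℝ} (hlam : 0 ≤ lam)
    (hpos : ∀ y : I → ℝ, y ≠ 0 → 0 < ∑ e ∈ B, w e * (c e ⬝ᵥ y) ^ 2)
    (hl : ∀ e ∈ B, ∀ y : I → ℝ, w e * (c e ⬝ᵥ y) ^ 2 ≤ lam * ∑ f ∈ B, w f * (c f ⬝ᵥ y) ^ 2) :
    (Fintype.card I : ℝ) ≤ lam * B.card := by
  set N : Matrix I I ℝ := ∑ e ∈ B, w e • vecMulVec (c e) (c e) with hN
  have hq : ∀ y, qf N y = ∑ e ∈ B, w e * (c e ⬝ᵥ y) ^ 2 := by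
    intro y
    rw [hN, qf_sum]
    simp only [qf_smul, qf_vecMulVec]
  have hpd : N.PosDef := by
    refine posDef_of_qf ?_ fun y hy => by rw [hq]; exact hpos y hy
    simp [hN, transpose_sum, transpose_vecMulVec]
  have h1 : (Fintype.card I : ℝ) = ∑ e ∈ B, w e * ip N (c e) (c e) := by
    have h2 : trace (N⁻¹ * N) = Fintype.card I := by
      rw [nonsing_inv_mul _ ((isUnit_iff_isUnit_det _).1 hpd.isUnit), trace_one]
    rw [← h2]
    conv_lhs => enter [1, 2]; rw [hN]
    rw [Matrix.mul_sum, trace_sum]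
    refine sum_congr rfl fun e _ => ?_
    rw [Matrix.mul_smul, trace_smul, mul_vecMulVec, trace_vecMulVec, smul_eq_mul, ip,
      dotProduct_comm]
  rw [h1]
  refine (sum_le_card_nsmul B _ lam fun e he => ?_).trans (by rw [nsmul_eq_mul, mul_comm])
  have h2 := hl e he (N⁻¹ *ᵥ c e)
  rw [← hq, qf_inv_mulVec hpd] at h2
  change w e * ip N (c e) (c e) ^ 2 ≤ _ at h2
  rcases (ip_nonneg hpd (c e)).eq_or_lt with h0 | h0
  · rw [← h0, mul_zero]; exact hlam
  · nlinarith

/-- A connected edge set with leverages at most `lam` is `1 / lam`-partition-connected. -/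
theorem pcl_of_levOk {w : E → ℝ} {lam : ℝ} (hlam : 0 < lam)
    (hconn : ∀ x : V → ℝ, en src tgt w A x ≤ 0 → ∀ u v, x u = x v)
    (hl : LevOk src tgt w A lam) : PCL src tgt (1 / lam) A := by
  classical
  intro f
  rcases isEmpty_or_nonempty V with hV | ⟨⟨r⟩⟩
  · have : (0 : ℝ) ≤ ((A.filter fun e => f (src e) ≠ f (tgt e)).card : ℝ) := Nat.cast_nonneg _
    have h2 : 0 < 1 / lam := by positivity
    simp only [univ_eq_empty, image_empty, card_empty, Nat.cast_zero]
    linarith
  set J : Finset V := (univ.image f).erase (f r) with hJ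
  set B : Finset E := A.filter fun e => f (src e) ≠ f (tgt e) with hB
  let ind : V → J → ℝ := fun v i => if (i : V) = f v then 1 else 0
  let c : E → J → ℝ := fun e => ind (src e) - ind (tgt e)
  have hc : ∀ (y : J → ℝ) (e : E), c e ⬝ᵥ y = ind (src e) ⬝ᵥ y - ind (tgt e) ⬝ᵥ y :=
    fun y e => sub_dotProduct _ _ _
  have hen : ∀ y : J → ℝ, en src tgt w A (fun v => ind v ⬝ᵥ y) = ∑ e ∈ B, w e * (c e ⬝ᵥ y) ^ 2 := by
    intro y
    rw [en, hB, sum_filter]
    refine sum_congr rfl fun e _ => ?_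
    split_ifs with h
    · rw [hc]
    · have h' : f (src e) = f (tgt e) := not_not.1 h
      simp [ind, h']
  have h1 := card_le_of_lev (B := B) (w := w) (c := c) hlam.le
    (fun y hy => ?_) fun e he y => ?_
  · rw [Fintype.card_coe, hJ, card_erase_of_mem (mem_image_of_mem f (mem_univ r)),
      Nat.cast_sub (card_pos.2 ⟨f r, mem_image_of_mem f (mem_univ r)⟩), Nat.cast_one] at h1
    rw [div_mul_eq_mul_div, one_mul, div_le_iff₀ hlam]
    linarith
  · rw [← hen]
    by_contra hle
    refine hy (funext fun i => ?_)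
    obtain ⟨hi1, hi2⟩ := mem_erase.1 i.2
    obtain ⟨v, _, hv⟩ := mem_image.1 hi2
    have h2 := hconn _ (not_lt.1 hle) v r
    have h3 : ind v = Pi.single i 1 := by
      funext j
      simp only [ind, hv, Pi.single_apply, Subtype.ext_iff]
    have h4 : ind r = 0 := by
      funext j
      simp [ind, (mem_erase.1 j.2).1]
    simpa [h3, h4] using h2
  · rw [← hen, hc]
    exact hl e (mem_filter.1 he).1 fun v => ind v ⬝ᵥ y

/-- **(4b)** A subset that keeps the fraction `c` of the energy of a connected edge set with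
leverages at most `lam` is `c / lam`-partition-connected. -/
theorem pc_of_energy {H : Finset E} {w : E → ℝ} {τ lam c : ℝ} (h : PC src tgt τ A) (hτ : 0 < τ)
    (hw : ∀ e ∈ A, 0 < w e) (hlam : 0 < lam) (hc : 0 < c) (hl : LevOk src tgt w A lam)
    (hH : H ⊆ A) (hE : ∀ x : V → ℝ, c * en src tgt w A x ≤ en src tgt w H x) :
    PC src tgt (c / lam) H := by
  have h1 := pcl_of_levOk (src := src) (tgt := tgt) (A := H) (w := w) (lam := lam / c)
    (by positivity) (fun x hx => ?_) fun e he x => ?_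
  · rw [one_div_div] at h1
    exact pcl_iff.1 h1
  · have h2 : en src tgt w A x ≤ 0 := by
      by_contra h3
      have := mul_pos hc (not_le.1 h3)
      linarith [hE x]
    exact (pcl_iff.2 h).const hτ (eq_of_en_eq_zero hw h2)
  · refine (hl e (hH he) x).trans ?_
    have h2 := mul_le_mul_of_nonneg_left (hE x) (show 0 ≤ lam / c by positivity)
    rwa [← mul_assoc, div_mul_cancel₀ _ hc.ne'] at h2

end Crest.Agent.X37.Lev
end

-- ▼ part X37/Lev/Alg
section

/-!
# Row 37, leverage balancing: the algorithm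

The state is the list of the edges whose weight was lowered so far.
-/

set_option autoImplicit false

open Matrix Finset

namespace Crest.Agent.X37.Lev

open Crest.Agent.Lib.PT Crest.Agent.X37.IO Crest.Agent.X37.Inner Crest.Agent.X37.PT

/-- entry `i` of the incidence vector of the pair `e` -/
def inc (e : ℕ × ℕ) (i : ℕ) : ℚ := (if i = e.1 then 1 else 0) - (if i = e.2 then 1 else 0)

/-- the weighted Laplacian of the marked edges, grounded at the vertex `0` -/
def lapF (es : List (ℕ × ℕ)) (F : List Bool) (w : List ℚ) (i j : ℕ) : ℚ :=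
  (if i = 0 then 1 else 0) * (if j = 0 then 1 else 0) + ∑ e ∈ range es.length,
    if F.getD e false = true then
      vent w e * (inc (es.getD e (0, 0)) i * inc (es.getD e (0, 0)) j) else 0

/-- the resistance of a pair, read from the table of the inverse -/
def resT (G : List (List ℚ)) (e : ℕ × ℕ) : ℚ :=
  ent G e.1 e.1 - ent G e.1 e.2 - (ent G e.2 e.1 - ent G e.2 e.2)

/-- the weights after the history `hist` -/
def wts (m : ℕ) (ρ : ℚ) (hist : List ℕ) : List ℚ := vtab m fun e => ρ ^ hist.count e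

/-- the first marked edge of large leverage (the number of edges if there is none) -/
noncomputable def viol (n : ℕ) (lam : ℚ) (es : List (ℕ × ℕ)) (F : List Bool) (w : List ℚ) : ℕ :=
  (List.range es.length).findIdx fun e => F.getD e false &&
    decide (lam < vent w e * resT (invL n (tab n n (lapF es F w))) (es.getD e (0, 0)))

/-- one step -/
noncomputable def step (n : ℕ) (ρ lam : ℚ) (es : List (ℕ × ℕ)) (F : List Bool) (hist : List ℕ) :
    List ℕ :=
  if viol n lam es F (wts es.length ρ hist) < es.length then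
    viol n lam es F (wts es.length ρ hist) :: hist else hist

/-- the number of steps -/
def nsteps (n a m : ℕ) : ℕ := m * (n * (n + m)) * (a * a)

/-- **Balanced weights** on the marked edges. -/
noncomputable def levWM (n a : ℕ) (lam : ℚ) (es : List (ℕ × ℕ)) (F : List Bool) : List ℚ :=
  wts es.length (1 - (a : ℚ)⁻¹) ((step n (1 - (a : ℚ)⁻¹) lam es F)^[nsteps n a es.length] [])

/-- **Balanced weights** on all edges. -/
noncomputable def levW (n a : ℕ) (lam : ℚ) (es : List (ℕ × ℕ)) : List ℚ :=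
  levWM n a lam es (List.replicate es.length true)

/-! ### Polynomial time -/

section pt

universe u

variable {α : Type u} [Enc α]

@[fun_prop] theorem inc_pt {e : α → ℕ × ℕ} {i : α → ℕ} (he : PT e) (hi : PT i) :
    PT fun x => inc (e x) (i x) := by unfold inc; fun_prop

@[fun_prop] theorem lapF_pt {es : α → List (ℕ × ℕ)} {F : α → List Bool} {w : α → List ℚ}
    {i j : α → ℕ} (hes : PT es) (hF : PT F) (hw : PT w) (hi : PT i) (hj : PT j) :
    PT fun x => lapF (es x) (F x) (w x) (i x) (j x) := by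
  unfold lapF
  refine PT.rat_add (by fun_prop) ?_
  exact PT.sum_range (by fun_prop) (by fun_prop) (by fun_prop) (by fun_prop)

@[fun_prop] theorem resT_pt {G : α → List (List ℚ)} {e : α → ℕ × ℕ} (hG : PT G) (he : PT e) :
    PT fun x => resT (G x) (e x) := by unfold resT; fun_prop

@[fun_prop] theorem wts_pt {m : α → ℕ} {ρ : α → ℚ} {hist : α → List ℕ} (hm : PT m) (hb : PB m)
    (hρ : PT ρ) (hh : PT hist) : PT fun x => wts (m x) (ρ x) (hist x) := by
  unfold wts
  refine vtab_pt hm hb (PT.rat_pow (by fun_prop) (by fun_prop) ?_)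
  exact PB.count (l := fun p : α × ℕ => hist p.1) (by fun_prop) _

@[fun_prop] theorem viol_pt {n : α → ℕ} {lam : α → ℚ} {es : α → List (ℕ × ℕ)} {F : α → List Bool}
    {w : α → List ℚ} (hn : PT n) (hb : PB n) (hl : PT lam) (hes : PT es) (hF : PT F) (hw : PT w) :
    PT fun x => viol (n x) (lam x) (es x) (F x) (w x) := by
  unfold viol
  have hG : PT fun x => invL (n x) (tab (n x) (n x) (lapF (es x) (F x) (w x))) :=
    invL_pt hn hb (tab_pt hn hb hn hb (by fun_prop))
  have hG' : PT fun p : α × ℕ =>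
      invL (n p.1) (tab (n p.1) (n p.1) (lapF (es p.1) (F p.1) (w p.1))) := hG.comp PT.id.fst
  refine PT.findIdx (by fun_prop) (PT.band (by fun_prop) (PT.decide (PT.rat_lt (by fun_prop)
    (PT.rat_mul (by fun_prop) (resT_pt hG' (by fun_prop))))))

theorem viol_le (n : ℕ) (lam : ℚ) (es : List (ℕ × ℕ)) (F : List Bool) (w : List ℚ) :
    viol n lam es F w ≤ es.length := by
  simpa [viol] using List.findIdx_le_length (xs := List.range es.length)

@[fun_prop] theorem step_pt {n : α → ℕ} {ρ lam : α → ℚ} {es : α → List (ℕ × ℕ)}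
    {F : α → List Bool} {hist : α → List ℕ} (hn : PT n) (hb : PB n) (hρ : PT ρ) (hl : PT lam)
    (hes : PT es) (hF : PT F) (hh : PT hist) :
    PT fun x => step (n x) (ρ x) (lam x) (es x) (F x) (hist x) := by
  unfold step
  have hv : PT fun x => viol (n x) (lam x) (es x) (F x) (wts (es x).length (ρ x) (hist x)) :=
    viol_pt hn hb hl hes hF (wts_pt hes.length (PB.length hes) hρ hh)
  exact PT.ite (hv.nat_lt hes.length) (hv.cons hh) hh

@[fun_prop] theorem levWM_pt {n a : α → ℕ} {lam : α → ℚ} {es : α → List (ℕ × ℕ)}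
    {F : α → List Bool} (hn : PT n) (hb : PB n) (ha : PT a) (hab : PB a) (hl : PT lam)
    (hes : PT es) (hF : PT F) : PT fun x => levWM (n x) (a x) (lam x) (es x) (F x) := by
  unfold levWM
  have hρ : PT fun x => 1 - (a x : ℚ)⁻¹ := by fun_prop
  refine wts_pt hes.length (PB.length hes) hρ ?_
  refine PT.iterate_grow (f := fun x => step (n x) (1 - (a x : ℚ)⁻¹) (lam x) (es x) (F x))
    (by unfold nsteps; fun_prop) (by unfold nsteps; fun_prop) (PT.const _)
    (step_pt (hn.comp PT.id.fst) (hb.comp PT.id.fst) (hρ.comp PT.id.fst) (hl.comp PT.id.fst)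
      (hes.comp PT.id.fst) (hF.comp PT.id.fst) PT.id.snd)
    (G := fun x => 4 * (es x).length + 2) (by fun_prop) fun x c => ?_
  unfold step
  split_ifs with h
  · have := sz_nat_le_self (viol (n x) (lam x) (es x) (F x)
      (wts (es x).length (1 - (a x : ℚ)⁻¹) c))
    rw [sz_cons]; omega
  · omega

@[fun_prop] theorem levW_pt {n a : α → ℕ} {lam : α → ℚ} {es : α → List (ℕ × ℕ)}
    (hn : PT n) (hb : PB n) (ha : PT a) (hab : PB a) (hl : PT lam) (hes : PT es) :
    PT fun x => levW (n x) (a x) (lam x) (es x) :=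
  levWM_pt hn hb ha hab hl hes (by fun_prop)

end pt

/-! ### Correctness -/

variable {n : ℕ} {es : List (ℕ × ℕ)}

theorem getD_eq (h : Loopless n es) (e : Fin es.length) :
    es.getD e (0, 0) = ((srcF h e : ℕ), (tgtF h e : ℕ)) := by
  simp [srcF, tgtF]

theorem cast_inc (u v i : Fin n) : ((inc ((u : ℕ), (v : ℕ)) i : ℚ) : ℝ) = bv u v i := by
  simp only [inc, bv, Pi.sub_apply, Pi.single_apply, Fin.ext_iff]
  split_ifs <;> simp

theorem lap_eq (h : Loopless n es) (hn : 0 < n) (F : List Bool) (w : List ℚ) (i j : Fin n) :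
    lap (srcF h) (tgtF h) ⟨0, hn⟩ (fun e => (vent w e : ℝ)) (maskF es.length F) i j =
      ((lapF es F w i j : ℚ) : ℝ) := by
  simp only [lap, lapF, Matrix.add_apply, Matrix.sum_apply, vecMulVec_apply, maskF, sum_filter]
  rw [sum_range]
  push_cast
  congr 1
  · simp only [Pi.single_apply, Fin.ext_iff]
    split_ifs <;> simp
  · refine sum_congr rfl fun e _ => ?_
    rw [getD_eq h]
    split_ifs
    · simp [cast_inc, vecMulVec_apply]
    · simp

theorem cast_resT (h : Loopless n es) (hn : 0 < n) (F : List Bool) (w : List ℚ)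
    (e : Fin es.length) :
    ((vent w e * resT (invL n (tab n n (lapF es F w))) (es.getD e (0, 0)) : ℚ) : ℝ) =
      lev (srcF h) (tgtF h) ⟨0, hn⟩ (fun e => (vent w e : ℝ)) (maskF es.length F) e := by
  have h1 := cast_invF_of_eq (lapF es F w) _ (lap_eq h hn F w)
  rw [getD_eq h, resT, lev, ip, bv_dot]
  simp only [ent_invL_tab, bv, mulVec_sub, mulVec_single_one, Pi.sub_apply, Matrix.col_apply]
  push_cast
  rw [h1, h1, h1, h1]

theorem vent_wts {m : ℕ} (ρ : ℚ) (hist : List ℕ) (e : Fin m) :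
    ((vent (wts m ρ hist) e : ℚ) : ℝ) = (ρ : ℝ) ^ hist.count (e : ℕ) := by
  simp [wts]

/-- no marked edge has large leverage -/
theorem lev_le_of_viol (h : Loopless n es) (hn : 0 < n) {lam : ℚ} {F : List Bool} {w : List ℚ}
    (hv : ¬ viol n lam es F w < es.length) : ∀ e ∈ maskF es.length F,
      lev (srcF h) (tgtF h) ⟨0, hn⟩ (fun e => (vent w e : ℝ)) (maskF es.length F) e ≤ lam := by
  intro e he
  have h1 : viol n lam es F w = (List.range es.length).length := by
    have := viol_le n lam es F w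
    rw [List.length_range]; omega
  have h2 := List.findIdx_eq_length.1 h1 e (List.mem_range.2 e.2)
  rw [(mem_filter.1 he).2, Bool.true_and, decide_eq_false_iff_not, not_lt] at h2
  rw [← cast_resT h hn]
  exact_mod_cast h2

theorem lt_lev_of_viol (h : Loopless n es) (hn : 0 < n) {lam : ℚ} {F : List Bool} {w : List ℚ}
    (hv : viol n lam es F w < es.length) : ⟨_, hv⟩ ∈ maskF es.length F ∧ (lam : ℝ) <
      lev (srcF h) (tgtF h) ⟨0, hn⟩ (fun e => (vent w e : ℝ)) (maskF es.length F) ⟨_, hv⟩ := by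
  have h0 : ∀ (m : ℕ) (p : ℕ → Bool), (List.range m).findIdx p < m →
      p ((List.range m).findIdx p) = true := by
    intro m p hp
    have h1 : (List.range m).findIdx p < (List.range m).length := by rwa [List.length_range]
    have h2 := List.findIdx_getElem (w := h1)
    rwa [List.getElem_range] at h2
  have h2 := h0 _ _ hv
  rw [Bool.and_eq_true, decide_eq_true_eq] at h2
  refine ⟨mem_filter.2 ⟨mem_univ _, h2.1⟩, ?_⟩
  rw [← cast_resT h hn]
  exact_mod_cast h2.2


/-- **(4a)** The weights are positive, at most one, and all marked edges have small leverage. -/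
theorem levWM_spec (h : Loopless n es) {a : ℕ} {lam : ℚ} {τ : ℝ} (F : List Bool) (hτ : 0 < τ)
    (ha : 2 ≤ a) (hlam : 1 + 4 / (a : ℝ) ≤ lam * τ)
    (hpc : PC (srcF h) (tgtF h) τ (maskF es.length F)) :
    (∀ e : Fin es.length, 0 < (((levWM n a lam es F).getD e 0 : ℚ) : ℝ) ∧
      (((levWM n a lam es F).getD e 0 : ℚ) : ℝ) ≤ 1) ∧
    LevOk (srcF h) (tgtF h) (fun e => (((levWM n a lam es F).getD e 0 : ℚ) : ℝ))
      (maskF es.length F) lam := by
  have ha' : (2 : ℝ) ≤ a := by exact_mod_cast ha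
  have hθ : (0 : ℝ) < (a : ℝ)⁻¹ := by positivity
  have hθ' : (a : ℝ)⁻¹ ≤ 1 / 2 := by rw [one_div]; exact inv_anti₀ (by norm_num) ha'
  have hρ : (((1 - (a : ℚ)⁻¹ : ℚ)) : ℝ) = 1 - (a : ℝ)⁻¹ := by push_cast; rfl
  have hw : ∀ (hist : List ℕ) (e : Fin es.length),
      ((vent (wts es.length (1 - (a : ℚ)⁻¹) hist) e : ℚ) : ℝ) =
        (1 - (a : ℝ)⁻¹) ^ hist.count (e : ℕ) := fun hist e => by rw [vent_wts, hρ]
  have hpos : ∀ e : Fin es.length, 0 < (((levWM n a lam es F).getD e 0 : ℚ) : ℝ) ∧
      (((levWM n a lam es F).getD e 0 : ℚ) : ℝ) ≤ 1 := by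
    intro e
    have h1 := hw ((step n (1 - (a : ℚ)⁻¹) lam es F)^[nsteps n a es.length] []) e
    change 0 < ((vent _ e : ℚ) : ℝ) ∧ ((vent _ e : ℚ) : ℝ) ≤ 1
    rw [levWM, h1]
    exact ⟨pow_pos (by linarith) _, pow_le_one₀ (by linarith) (by linarith)⟩
  refine ⟨hpos, fun e₀ he₀ => ?_⟩
  have hn2 : 2 ≤ n := by
    have h1 := srcF_ne_tgtF h e₀
    have h2 := (srcF h e₀).2
    have h3 := (tgtF h e₀).2
    have h4 : (srcF h e₀ : ℕ) ≠ tgtF h e₀ := fun e => h1 (Fin.ext e)
    omega
  have hn : 0 < n := by omega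
  have hpc' := pcl_iff.2 hpc
  have key : ∀ t : ℕ, ¬ viol n lam es F (wts es.length (1 - (a : ℚ)⁻¹)
      ((step n (1 - (a : ℚ)⁻¹) lam es F)^[t] [])) < es.length ∨
      Pot (srcF h) (tgtF h) ⟨0, hn⟩ (maskF es.length F) (a : ℝ)⁻¹ lam t
        fun e => ((step n (1 - (a : ℚ)⁻¹) lam es F)^[t] []).count (e : ℕ) := by
    intro t
    induction t with
    | zero => exact Or.inr (pot_zero _ _)
    | succ t ih =>
      rw [Function.iterate_succ_apply']
      set hist := (step n (1 - (a : ℚ)⁻¹) lam es F)^[t] []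
      by_cases hv : viol n lam es F (wts es.length (1 - (a : ℚ)⁻¹) hist) < es.length
      · obtain ⟨h1, h2⟩ := lt_lev_of_viol h hn hv
        simp only [hw] at h2
        refine Or.inr ((ih.resolve_left (not_not.2 hv)).step hpc' hτ hθ (by linarith) h1 h2
          fun f _ => ?_)
        rw [step, if_pos hv, List.count_cons]
        simp only [beq_iff_eq, Fin.ext_iff]
        exact congrArg _ (if_congr eq_comm rfl rfl)
      · rw [step, if_neg hv]
        exact Or.inl hv
  rcases key (nsteps n a es.length) with hv | hP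
  · exact levOk_of_lev hpc' hτ (fun e _ => (hpos e).1) (lev_le_of_viol h hn hv) e₀ he₀
  · exfalso
    have h1 := hP.bound hpc' hτ hθ hθ' (by rwa [div_eq_mul_inv] at hlam)
    have h2 := hpc'.le_card hτ (by simpa using hn2)
    have h3 : ((maskF es.length F).card : ℝ) ≤ es.length := by
      exact_mod_cast (card_le_univ _).trans_eq (Fintype.card_fin _)
    rw [Fintype.card_fin, nsteps] at h1
    push_cast at h1
    have hn' : (0 : ℝ) < n := by exact_mod_cast hn
    have h4 : 2 * ((a : ℝ)⁻¹) ^ 2 * (es.length * (n * (n + es.length)) * (a * a)) =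
        2 * (es.length * (n * (n + es.length))) := by field_simp
    rw [h4] at h1
    have h5 : τ * (n * (n + (maskF es.length F).card)) ≤ es.length * (n * (n + es.length)) := by
      gcongr
      exact h2.trans h3
    have h6 : (0 : ℝ) < es.length * (n * (n + es.length)) := by
      have : (0 : ℝ) < es.length := hτ.trans_le (h2.trans h3)
      positivity
    linarith



end Crest.Agent.X37.Lev
end

-- ▼ part X37/Hv/Halve
section

/-!
# Row 37: the halving step

The main lemma, the balanced weights and the two-block discrepancy theorem give one halving step.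
-/

set_option autoImplicit false

namespace Crest.Agent.X37.Hv

open Crest.Agent.Lib.PT Crest.Agent.X37.IO Crest.Agent.X37.PT Matrix Finset
open Crest.CombinatoricsR.Multigraph Crest.Agent.X37.Inner Crest.Agent.X37.Lev

/-! ### the mathematics of the two blocks -/

section maths

variable {V E : Type} [Fintype V] [DecidableEq V] [Fintype E] [DecidableEq E] {src tgt : E → V}

omit [Fintype V] [DecidableEq V] [Fintype E] [DecidableEq E] in
theorem signed_sum (F : Finset E) (σ : E → Bool) (g : E → ℝ) :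
    ∑ e ∈ F, (if σ e = true then 1 else -1) * g e =
      2 * ∑ e ∈ F.filter (fun e => σ e = true), g e - ∑ e ∈ F, g e := by
  rw [sum_filter, mul_sum, ← sum_sub_distrib]
  refine sum_congr rfl fun e _ => ?_
  split_ifs <;> ring

omit [Fintype V] [DecidableEq V] [Fintype E] [DecidableEq E] in
theorem signed_sum' (F : Finset E) (σ : E → Bool) (g : E → ℝ) :
    ∑ e ∈ F, (if σ e = false then 1 else -1) * g e =
      ∑ e ∈ F, g e - 2 * ∑ e ∈ F.filter (fun e => σ e = true), g e := by
  rw [sum_filter, mul_sum, ← sum_sub_distrib]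
  refine sum_congr rfl fun e _ => ?_
  cases σ e <;> simp
  ring

omit [Fintype V] [Fintype E] [DecidableEq E] in
theorem en_ind (A : Finset E) (S : Finset V) (c : ℝ) :
    en src tgt (fun _ => 1) A (ind S c) = (cutEdges src tgt A S).card := by
  rw [en, cutEdges, card_filter, Nat.cast_sum]
  refine sum_congr rfl fun e _ => ?_
  have e1 : ind S c (src e) - ind S c (tgt e) =
      (if src e ∈ S then 1 else 0) - (if tgt e ∈ S then 1 else 0) := by simp [ind]
  rw [e1]
  by_cases h1 : src e ∈ S <;> by_cases h2 : tgt e ∈ S <;> simp [h1, h2]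

omit [DecidableEq E] in
/-- the upper block: cuts are halved -/
theorem cut_le {F : Finset E} {σ : E → Bool} {D : Matrix V V ℝ} {u η : ℝ} (hu : 0 ≤ u)
    (hη0 : 0 ≤ η) (hη : η ≤ 1)
    (hD : ∀ S : Finset V, ∃ c : ℝ, qf D (ind S c) ≤ (cutEdges src tgt univ S).card)
    (hT : ∀ z : V → ℝ, ∑ e ∈ F, (if σ e = true then 1 else -1) * (1 * (z (src e) - z (tgt e)) ^ 2) ≤
      u * (en src tgt (fun _ => 1) F z + η * qf D z)) (S : Finset V) :
    ((cutEdges src tgt (F.filter fun e => σ e = true) S).card : ℝ) ≤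
      (1 + 2 * u) / 2 * (cutEdges src tgt univ S).card := by
  obtain ⟨c, hc⟩ := hD S
  have h1 := hT (ind S c)
  rw [signed_sum] at h1
  have h2 := en_ind (src := src) (tgt := tgt) F S c
  have h3 := en_ind (src := src) (tgt := tgt) (F.filter fun e => σ e = true) S c
  rw [h2] at h1
  unfold en at h2 h3
  rw [h2, h3] at h1
  have h4 : ((cutEdges src tgt F S).card : ℝ) ≤ (cutEdges src tgt univ S).card := by
    exact_mod_cast card_le_card (filter_subset_filter _ (subset_univ F))
  have h5 : (0 : ℝ) ≤ (cutEdges src tgt univ S).card := Nat.cast_nonneg _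
  have h6 : η * qf D (ind S c) ≤ (cutEdges src tgt univ S).card :=
    (mul_le_mul_of_nonneg_left hc hη0).trans (by nlinarith)
  have h7 := mul_le_mul_of_nonneg_left (add_le_add h4 h6) hu
  nlinarith

omit [Fintype V] [DecidableEq V] [Fintype E] [DecidableEq E] in
/-- the lower block: the energy is halved -/
theorem en_ge {F : Finset E} {σ : E → Bool} {w : E → ℝ} {u : ℝ} (v : V)
    (hF : ∀ z : V → ℝ, ∑ e ∈ F, (if σ e = false then 1 else -1) *
      (w e * (z (src e) - z (tgt e)) ^ 2) ≤ u * (z v ^ 2 + en src tgt w F z)) (x : V → ℝ) :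
    (1 - u) / 2 * en src tgt w F x ≤ en src tgt w (F.filter fun e => σ e = true) x := by
  have h1 := hF fun y => x y - x v
  rw [signed_sum'] at h1
  simp only [en, sub_sub_sub_cancel_right, sub_self] at h1 ⊢
  nlinarith

end maths

/-! ### the instance -/

/-- weights restricted to the marked edges -/
def wM (m : ℕ) (F : List Bool) (w : List ℚ) : List ℚ :=
  vtab m fun e => if F.getD e false = true then vent w e else 0

/-- the table of the incidence vectors -/
def vecs (n : ℕ) (es : List (ℕ × ℕ)) : List (List ℚ) :=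
  tab es.length n fun e i => inc (es.getD e (0, 0)) i

/-- unit weights -/
def ones (m : ℕ) : List ℚ := vtab m fun _ => 1

/-- the upper block -/
def blkT (n r : ℕ) (es : List (ℕ × ℕ)) (F : List Bool) (D : List (List ℚ)) : KS.Blk :=
  (tab n n fun i j => lapF es F (ones es.length) i j -
      (if i = 0 then 1 else 0) * (if j = 0 then 1 else 0) + (r : ℚ)⁻¹ * ent D i j,
    wM es.length F (ones es.length), vecs n es)

/-- the lower block -/
def blkF (n : ℕ) (es : List (ℕ × ℕ)) (F : List Bool) (w : List ℚ) : KS.Blk :=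
  (tab n n (lapF es F w), wM es.length F w, vecs n es)

/-- the discrepancy instance -/
def inst (n r R : ℕ) (es : List (ℕ × ℕ)) (F : List Bool) (D : List (List ℚ)) (w : List ℚ) :
    KS.Inp :=
  (⟨n⟩, ⟨es.length⟩, ⟨R⟩, blkT n r es F D, blkF n es F w)

/-- conjunction of two masks -/
def both (m : ℕ) (F σ : List Bool) : List Bool :=
  (List.range m).map fun i => F.getD i false && σ.getD i false

theorem maskF_both (m : ℕ) (F σ : List Bool) :
    maskF m (both m F σ) = (maskF m F).filter fun e : Fin m => σ.getD e false = true := by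
  ext i
  simp [maskF, both, List.getD_eq_getElem?_getD]

section pt

variable {α : Type} [Enc α]

@[fun_prop] theorem wM_pt {m : α → ℕ} {F : α → List Bool} {w : α → List ℚ} (hm : PT m)
    (hb : PB m) (hF : PT F) (hw : PT w) : PT fun a => wM (m a) (F a) (w a) := by
  unfold wM; fun_prop

@[fun_prop] theorem vecs_pt {n : α → ℕ} {es : α → List (ℕ × ℕ)} (hn : PT n) (hb : PB n)
    (hes : PT es) : PT fun a => vecs (n a) (es a) := by
  unfold vecs; fun_prop

@[fun_prop] theorem ones_pt {m : α → ℕ} (hm : PT m) (hb : PB m) : PT fun a => ones (m a) := by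
  unfold ones; fun_prop

@[fun_prop] theorem both_pt {m : α → ℕ} {F σ : α → List Bool} (hm : PT m) (hb : PB m)
    (hF : PT F) (hσ : PT σ) : PT fun a => both (m a) (F a) (σ a) := by
  unfold both; fun_prop

theorem blkT_pt {n r : α → ℕ} {es : α → List (ℕ × ℕ)} {F : α → List Bool}
    {D : α → List (List ℚ)} (hn : PT n) (hb : PB n) (hr : PT r) (hes : PT es) (hF : PT F)
    (hD : PT D) : PT fun a => blkT (n a) (r a) (es a) (F a) (D a) := by
  unfold blkT; fun_prop

theorem blkF_pt {n : α → ℕ} {es : α → List (ℕ × ℕ)} {F : α → List Bool}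
    {w : α → List ℚ} (hn : PT n) (hb : PB n) (hes : PT es) (hF : PT F)
    (hw : PT w) : PT fun a => blkF (n a) (es a) (F a) (w a) := by
  unfold blkF
  exact PT.pair (tab_pt hn hb hn hb (by fun_prop)) (by fun_prop)

theorem inst_pt {n r R : α → ℕ} {es : α → List (ℕ × ℕ)} {F : α → List Bool}
    {D : α → List (List ℚ)} {w : α → List ℚ} (hn : PT n) (hb : PB n) (hr : PT r) (hR : PT R)
    (hRb : PB R) (hes : PT es) (hF : PT F) (hD : PT D) (hw : PT w) :
    PT fun a => inst (n a) (r a) (R a) (es a) (F a) (D a) (w a) := by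
  unfold inst
  exact PT.pair (by fun_prop) (PT.pair (by fun_prop) (PT.pair (by fun_prop)
    (PT.pair (blkT_pt hn hb hr hes hF hD) (blkF_pt hn hb hes hF hw))))

end pt

/-! ### reading the instance -/

section read

variable {n : ℕ} {es : List (ℕ × ℕ)}

theorem vecs_eq (h : Loopless n es) (e : Fin es.length) :
    (fun i : Fin n => ((ent (vecs n es) e i : ℚ) : ℝ)) = bv (srcF h e) (tgtF h e) := by
  funext i
  rw [vecs, ent_tab_fin, getD_eq h, cast_inc]

theorem vent_wM {m : ℕ} (F : List Bool) (w : List ℚ) (e : Fin m) :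
    vent (wM m F w) e = if e ∈ maskF m F then vent w e else 0 := by
  simp [wM, maskF]

theorem vent_ones {m : ℕ} (e : Fin m) : vent (ones m) e = 1 := by simp [ones]

theorem sum_blk (h : Loopless n es) (F : List Bool) (w : List ℚ) (c : ℕ → ℝ) (z : Fin n → ℝ) :
    ∑ e ∈ range es.length, c e * (((vent (wM es.length F w) e : ℚ) : ℝ) *
      ((fun i : Fin n => ((ent (vecs n es) e i : ℚ) : ℝ)) ⬝ᵥ z) ^ 2) =
    ∑ e ∈ maskF es.length F, c e * (((vent w e : ℚ) : ℝ) * (z (srcF h e) - z (tgtF h e)) ^ 2) := by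
  rw [sum_range, ← sum_subset (subset_univ (maskF es.length F))]
  · refine sum_congr rfl fun e he => ?_
    rw [vecs_eq h, bv_dot, vent_wM, if_pos he]
  · intro e _ he
    rw [vent_wM, if_neg he]
    simp

theorem mat_blkF (h : Loopless n es) (hn : 0 < n) (F : List Bool) (w : List ℚ) :
    PT.matR n (ent (blkF n es F w).1) =
      lap (srcF h) (tgtF h) ⟨0, hn⟩ (fun e => (vent w e : ℝ)) (maskF es.length F) := by
  ext i j
  rw [lap_eq h hn, PT.matR_apply, blkF, ent_tab_fin]

theorem mat_blkT (h : Loopless n es) (hn : 0 < n) (r : ℕ) (F : List Bool) (D : List (List ℚ)) :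
    PT.matR n (ent (blkT n r es F D).1) =
      lap (srcF h) (tgtF h) ⟨0, hn⟩ (fun _ => 1) (maskF es.length F) +
        (-1 : ℝ) • vecMulVec (Pi.single ⟨0, hn⟩ 1) (Pi.single ⟨0, hn⟩ 1) +
        (r : ℝ)⁻¹ • Inner.matR n D := by
  have h1 : (fun _ => (1 : ℝ)) = fun e : Fin es.length => ((vent (ones es.length) e : ℚ) : ℝ) := by
    funext e; rw [vent_ones]; simp
  ext i j
  rw [Matrix.add_apply, Matrix.add_apply, h1, lap_eq h hn, PT.matR_apply, blkT, ent_tab_fin]
  simp only [Matrix.smul_apply, vecMulVec_apply, Pi.single_apply, Fin.ext_iff, smul_eq_mul,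
    Inner.matR, of_apply, ent]
  push_cast
  split_ifs <;> (simp; try ring)

theorem qf_blkT (h : Loopless n es) (hn : 0 < n) (r : ℕ) (F : List Bool) (D : List (List ℚ))
    (z : Fin n → ℝ) : qf (PT.matR n (ent (blkT n r es F D).1)) z =
      en (srcF h) (tgtF h) (fun _ => 1) (maskF es.length F) z +
        (r : ℝ)⁻¹ * qf (Inner.matR n D) z := by
  rw [mat_blkT h hn, qf_add, qf_add, qf_lap, qf_smul, qf_smul, qf_vecMulVec]
  simp

theorem posDef_blkT (h : Loopless n es) (hn : 0 < n) {r : ℕ} (hr : 0 < r) (F : List Bool)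
    {D : List (List ℚ)} (hD : (Inner.matR n D).PosDef) :
    (PT.matR n (ent (blkT n r es F D).1)).PosDef := by
  refine posDef_of_qf ?_ fun x hx => ?_
  · rw [mat_blkT h hn, transpose_add, transpose_add, lap_symm, transpose_smul, transpose_smul,
      symm_of_posDef hD, transpose_vecMulVec]
  · rw [qf_blkT h hn]
    have h1 := en_nonneg (src := srcF h) (tgt := tgtF h) (w := fun _ => 1)
      (A := maskF es.length F) (fun _ _ => zero_le_one) x
    have h2 := qf_pos hD hx
    have h3 : (0 : ℝ) < r := by exact_mod_cast hr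
    positivity

/-- the instance is valid -/
theorem valid_inst (h : Loopless n es) (hn : 0 < n) {r R : ℕ} (hr : 0 < r) (hR : 1 ≤ R)
    {F : List Bool} {D : List (List ℚ)} {w : List ℚ} {k rho lam : ℝ} (hk : 0 < k)
    (hpc : PC (srcF h) (tgtF h) k (maskF es.length F))
    (hD : Good (srcF h) (tgtF h) (maskF es.length F) rho (Inner.matR n D))
    (hw : ∀ e : Fin es.length, (0 : ℝ) < vent w e) (hlam : 0 ≤ lam)
    (hl : LevOk (srcF h) (tgtF h) (fun e => (vent w e : ℝ)) (maskF es.length F) lam)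
    (h1 : r * rho * (2 ^ 18 * (R : ℝ) ^ 2) ≤ 1) (h2 : lam * (2 ^ 18 * (R : ℝ) ^ 2) ≤ 1) :
    KS.Valid (inst n r R es F D w) := by
  have hT := posDef_blkT h hn hr F hD.1
  have hF : (PT.matR n (ent (blkF n es F w).1)).PosDef := by
    rw [mat_blkF h hn]
    exact lap_posDef (pcl_iff.2 hpc) hk fun e _ => hw e
  have hr' : (0 : ℝ) < r := by exact_mod_cast hr
  have hRR : (0 : ℝ) ≤ 2 ^ 18 * (R : ℝ) ^ 2 := by positivity
  refine ⟨hR, fun s => ?_, fun s e he => ?_, fun s (z : Fin n → ℝ) => ?_, fun s e he => ?_⟩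
  · cases s
    · exact hF
    · exact hT
  · cases s
    · change 0 ≤ vent (wM es.length F w) (⟨e, he⟩ : Fin es.length)
      rw [vent_wM]
      split_ifs
      · exact_mod_cast (hw ⟨e, he⟩).le
      · exact le_rfl
    · change 0 ≤ vent (wM es.length F (ones es.length)) (⟨e, he⟩ : Fin es.length)
      rw [vent_wM, vent_ones]
      split_ifs <;> norm_num
  · cases s
    · have h3 := sum_blk h F w (fun _ => 1) z
      simp only [one_mul] at h3
      refine h3.le.trans ?_
      change _ ≤ qf (PT.matR n (ent (blkF n es F w).1)) z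
      rw [mat_blkF h hn, qf_lap]
      exact le_add_of_nonneg_left (sq_nonneg _)
    · have h3 := sum_blk h F (ones es.length) (fun _ => 1) z
      simp only [one_mul, vent_ones, Rat.cast_one] at h3
      refine h3.le.trans ?_
      change _ ≤ qf (PT.matR n (ent (blkT n r es F D).1)) z
      rw [qf_blkT h hn]
      have h4 := qf_nonneg hD.1 z
      simp only [en, one_mul]
      exact le_add_of_nonneg_right (by positivity)
  · cases s
    · change ((vent (wM es.length F w) (⟨e, he⟩ : Fin es.length) : ℚ) : ℝ) *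
        ip (PT.matR n (ent (blkF n es F w).1))
          (fun i : Fin n => ((ent (vecs n es) (⟨e, he⟩ : Fin es.length) i : ℚ) : ℝ))
          (fun i : Fin n => ((ent (vecs n es) (⟨e, he⟩ : Fin es.length) i : ℚ) : ℝ)) *
        (2 ^ 18 * (R : ℝ) ^ 2) ≤ 1
      rw [vecs_eq h, vent_wM]
      split_ifs with hm
      · have hwe := hw ⟨e, he⟩
        have h3 := ip_le_of hF (bv (srcF h ⟨e, he⟩) (tgtF h ⟨e, he⟩))
          (c := lam / vent w (⟨e, he⟩ : Fin es.length)) (by positivity) fun x => by
            rw [bv_dot, mat_blkF h hn, qf_lap, div_mul_eq_mul_div, le_div_iff₀ hwe]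
            have h4 := hl _ hm x
            have h5 := mul_nonneg hlam (sq_nonneg (x ⟨0, hn⟩))
            nlinarith
        rw [le_div_iff₀ hwe, mul_comm] at h3
        exact (mul_le_mul_of_nonneg_right h3 hRR).trans h2
      · simp
    · change ((vent (wM es.length F (ones es.length)) (⟨e, he⟩ : Fin es.length) : ℚ) : ℝ) *
        ip (PT.matR n (ent (blkT n r es F D).1))
          (fun i : Fin n => ((ent (vecs n es) (⟨e, he⟩ : Fin es.length) i : ℚ) : ℝ))
          (fun i : Fin n => ((ent (vecs n es) (⟨e, he⟩ : Fin es.length) i : ℚ) : ℝ)) *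
        (2 ^ 18 * (R : ℝ) ^ 2) ≤ 1
      rw [vecs_eq h, vent_wM, vent_ones]
      split_ifs with hm
      · have h3 := ip_mono hD.1 hT (inv_pos.2 hr') (fun x => by
          rw [qf_blkT h hn]
          exact le_add_of_nonneg_left (en_nonneg (fun _ _ => zero_le_one) x))
          (bv (srcF h ⟨e, he⟩) (tgtF h ⟨e, he⟩))
        have h4 := h3.trans (hD.2.2 _ hm)
        rw [inv_mul_le_iff₀ hr'] at h4
        rw [Rat.cast_one, one_mul]
        exact (mul_le_mul_of_nonneg_right h4 hRR).trans h1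
      · simp

/-- reading the signs -/
theorem of_spec (h : Loopless n es) (hn : 0 < n) {r R : ℕ} (hr : 0 < r) {F : List Bool}
    {D : List (List ℚ)} {w : List ℚ} {σ : List Bool} {k rho lam : ℝ} (hk : 0 < k)
    (hpc : PC (srcF h) (tgtF h) k (maskF es.length F))
    (hD : Good (srcF h) (tgtF h) (maskF es.length F) rho (Inner.matR n D))
    (hw : ∀ e : Fin es.length, (0 : ℝ) < vent w e) (hlam : 0 < lam)
    (hl : LevOk (srcF h) (tgtF h) (fun e => (vent w e : ℝ)) (maskF es.length F) lam)
    (hu : 2 / (R : ℝ) < 1) (hs : KS.Spec (inst n r R es F D w) σ) :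
    PC (srcF h) (tgtF h) ((1 - 2 / (R : ℝ)) / 2 / lam) (maskF es.length (both es.length F σ)) ∧
    ∀ S : Finset (Fin n),
      ((cutEdges (srcF h) (tgtF h) (maskF es.length (both es.length F σ)) S).card : ℝ) ≤
        (1 + 2 * (2 / (R : ℝ))) / 2 * (cutEdges (srcF h) (tgtF h) univ S).card := by
  rw [maskF_both]
  have hr' : (1 : ℝ) ≤ r := by exact_mod_cast hr
  refine ⟨pc_of_energy hpc hk (fun e _ => hw e) hlam (by linarith) hl (filter_subset _ _)
    (en_ge (σ := fun e : Fin es.length => σ.getD e false) ⟨0, hn⟩ fun z => ?_), ?_⟩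
  · have h1 := hs.2 false z
    have h2 := sum_blk h F w (fun e => if σ.getD e false = false then 1 else -1) z
    refine (h2.symm.le.trans h1).trans (le_of_eq ?_)
    change 2 / (R : ℝ) * qf (PT.matR n (ent (blkF n es F w).1)) z = _
    rw [mat_blkF h hn, qf_lap]
  · refine cut_le (σ := fun e : Fin es.length => σ.getD e false) (η := (r : ℝ)⁻¹) (by positivity)
      (by positivity) (inv_le_one_of_one_le₀ hr') hD.2.1 fun z => ?_
    have h1 := hs.2 true z
    have h2 := sum_blk h F (ones es.length) (fun e => if σ.getD e false = true then 1 else -1) z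
    simp only [vent_ones, Rat.cast_one] at h2
    refine (h2.symm.le.trans h1).trans (le_of_eq ?_)
    change 2 / (R : ℝ) * qf (PT.matR n (ent (blkT n r es F D).1)) z = _
    rw [qf_blkT h hn]

end read

/-! ### the halving step -/

theorem num_pc {c r R t k q : ℝ} (hc : 1 ≤ c) (hr0 : 0 < r) (hR : 2 ≤ R) (ht : q * r ≤ t)
    (hkt : k + q = t) (hk0 : 0 < k) (hu : 2 / R ≤ 4 * (512 * c) / r) (ht0 : 0 ≤ t) :
    (1 - (8 * (512 * c) + 5) / r) * t / 2 ≤ (1 - 2 / R) / 2 / ((1 + 4 / r) / k) := by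
  have hR0 : 0 < R := by linarith
  have hkt' : (1 - 1 / r) * t ≤ k := by
    have : q ≤ 1 / r * t := by
      rw [div_mul_eq_mul_div, one_mul, le_div_iff₀ hr0]; exact ht
    linarith
  have hx0 : 0 < 1 / r := by positivity
  have hu1 : 2 / R ≤ 1 := by rw [div_le_one hR0]; linarith
  have hu0 : 0 ≤ 2 / R := by positivity
  rw [div_div_eq_mul_div, le_div_iff₀ (by positivity)]
  have e1 : (8 * (512 * c) + 5) / r = (8 * (512 * c) + 5) * (1 / r) := by ring
  have e2 : 4 / r = 4 * (1 / r) := by ring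
  have e3 : 4 * (512 * c) / r = 4 * (512 * c) * (1 / r) := by ring
  rw [e3] at hu
  rw [e1, e2]
  generalize 1 / r = x at *
  generalize 2 / R = u at *
  have hc0 : 0 ≤ c := by linarith
  have a1 : 0 ≤ c * x := by positivity
  have a2 : 0 ≤ c * x * x := by positivity
  have a3 : 0 ≤ u * x := by positivity
  have a4 : 0 ≤ x * x := by positivity
  have h5 : (1 - (8 * (512 * c) + 5) * x) * (1 + 4 * x) ≤ (1 - u) * (1 - x) := by linarith
  have h6 := mul_le_mul_of_nonneg_right h5 ht0
  have h7 := mul_le_mul_of_nonneg_left hkt' (sub_nonneg.2 hu1)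
  linarith

/-- **One halving step.** -/
theorem half_of (hM : Outer.MainStatement) (hK : KS.KSStatement) : Half.HalfStatement := by
  obtain ⟨C, main, hC, hmain, hM⟩ := hM
  obtain ⟨ks, hks, hK⟩ := hK
  obtain ⟨c, hc⟩ : ∃ c : ℕ, C + 1 ≤ c := ⟨⌈C + 1⌉₊, Nat.le_ceil _⟩
  let kk : Un × Un × ℕ × List (ℕ × ℕ) → ℕ := fun a => a.2.2.1 - a.2.1.n ^ 11
  let out : Un × Un × ℕ × List (ℕ × ℕ) → List Bool × List (List ℚ) := fun a =>
    main (a.1, kk a, a.2.1.n, a.2.2.2)
  let wt : Un × Un × ℕ × List (ℕ × ℕ) → List ℚ := fun a =>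
    levWM a.1.n a.2.1.n ((1 + 4 / (a.2.1.n : ℚ)) / (kk a : ℚ)) a.2.2.2 (out a).1
  let ins : Un × Un × ℕ × List (ℕ × ℕ) → KS.Inp := fun a =>
    inst a.1.n a.2.1.n (a.2.1.n / (512 * c)) a.2.2.2 (out a).1 (out a).2 (wt a)
  have hkk : PT kk := by simp only [kk]; fun_prop
  have hout : PT out := hmain.comp (by fun_prop)
  have hwt : PT wt := levWM_pt (by fun_prop) (by fun_prop) (by fun_prop) (by fun_prop)
    (by fun_prop) (by fun_prop) (by fun_prop)
  have hins : PT ins := inst_pt (by fun_prop) (by fun_prop) (by fun_prop) (by fun_prop)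
    (PB.mono (g := fun a : Un × Un × ℕ × List (ℕ × ℕ) => a.2.1.n) (by fun_prop)
      fun a => Nat.div_le_self _ _) (by fun_prop) (by fun_prop) (by fun_prop) hwt
  have hsig : PT fun a => ks (ins a) := hks.comp hins
  refine ⟨8 * (512 * c) + 5, 8 * (512 * c),
    fun a => Half.sel a.2.2.2 (both a.2.2.2.length (out a).1 (ks (ins a))), by fun_prop, ?_⟩
  intro n r t es h hn hr ht1 ht2 hpc
  have hc1 : (1 : ℝ) ≤ c := by linarith
  have hc1' : 1 ≤ c := by exact_mod_cast hc1
  have hr2 : 4096 ≤ r := by omega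
  have hr' : (4096 : ℝ) ≤ r := by exact_mod_cast hr2
  have hr0 : (0 : ℝ) < r := by linarith
  have h11 : 2 * r ^ 11 ≤ r ^ 12 := by rw [pow_succ r 11]; nlinarith [Nat.zero_le (r ^ 11)]
  have h11' : 2 * r ^ 2 ≤ r ^ 11 := by
    have : r ^ 3 ≤ r ^ 11 := Nat.pow_le_pow_right (by omega) (by omega)
    rw [pow_succ r 2] at this
    nlinarith [Nat.zero_le (r ^ 2)]
  have hr1 : 1 ≤ r ^ 2 := Nat.one_le_pow _ _ (by omega)
  set k := t - r ^ 11 with hk
  have hkt : (k : ℝ) + (r : ℝ) ^ 11 = t := by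
    have : k + r ^ 11 = t := by omega
    exact_mod_cast this
  have hk2 : 2 * (r : ℝ) ^ 2 ≤ k := by
    have : 2 * r ^ 2 ≤ k := by omega
    exact_mod_cast this
  have hk0 : (0 : ℝ) < k := by nlinarith
  set R := r / (512 * c) with hR
  have hR8 : 8 ≤ R := (Nat.le_div_iff_mul_le (by omega)).2 hr
  have hRr : (R : ℝ) * (512 * c) ≤ r := by exact_mod_cast Nat.div_mul_le_self r (512 * c)
  have hRr' : (r : ℝ) ≤ 2 * (R * (512 * c)) := by
    have h1 : r < R * (512 * c) + 512 * c := Nat.lt_div_mul_add (by omega)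
    have h2 : 512 * c ≤ R * (512 * c) := Nat.le_mul_of_pos_left _ (by omega)
    have : r ≤ 2 * (R * (512 * c)) := by omega
    exact_mod_cast this
  have hR8' : (8 : ℝ) ≤ R := by exact_mod_cast hR8
  have hR0 : (0 : ℝ) < R := by linarith
  have hsq : 2 ^ 18 * (R : ℝ) ^ 2 * (c : ℝ) ^ 2 ≤ (r : ℝ) ^ 2 := by
    have := pow_le_pow_left₀ (by positivity) hRr 2
    nlinarith
  obtain ⟨hF, hD⟩ := hM n k r es h (by omega) (by omega) (by omega)
    (by rw [hkt]; exact (Half.pcl_iff h t).1 hpc)
  have hlamc : ((((1 + 4 / (r : ℚ)) / (k : ℚ) : ℚ)) : ℝ) = (1 + 4 / (r : ℝ)) / k := by push_cast; rfl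
  obtain ⟨hw, hl⟩ := levWM_spec h (a := r) (lam := (1 + 4 / (r : ℚ)) / (k : ℚ))
    (main (⟨n⟩, k, r, es)).1 hk0 (by omega) (by rw [hlamc, div_mul_cancel₀ _ hk0.ne']) hF
  rw [hlamc] at hl
  have h4r : 4 / (r : ℝ) ≤ 1 := by rw [div_le_one hr0]; linarith
  have hlam0 : 0 < (1 + 4 / (r : ℝ)) / k := by positivity
  have hn0 : 0 < n := by omega
  have hr00 : 0 < r := by omega
  have hv : KS.Valid (inst n r R es (main (⟨n⟩, k, r, es)).1 (main (⟨n⟩, k, r, es)).2
      (levWM n r ((1 + 4 / (r : ℚ)) / (k : ℚ)) es (main (⟨n⟩, k, r, es)).1)) := by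
    refine valid_inst h hn0 hr00 (by omega) hk0 hF hD (fun e => (hw e).1) hlam0.le hl ?_ ?_
    · have e : r * (C / (r : ℝ) ^ 3) * (2 ^ 18 * (R : ℝ) ^ 2) =
          C * (2 ^ 18 * (R : ℝ) ^ 2) / (r : ℝ) ^ 2 := by field_simp
      rw [e, div_le_one (by positivity)]
      have : C ≤ (c : ℝ) ^ 2 := by nlinarith
      have h2 : (0 : ℝ) ≤ 2 ^ 18 * (R : ℝ) ^ 2 := by positivity
      nlinarith
    · rw [div_mul_eq_mul_div, div_le_one hk0]
      have h2 : (0 : ℝ) ≤ 2 ^ 18 * (R : ℝ) ^ 2 := by positivity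
      have h3 : (1 : ℝ) ≤ (c : ℝ) ^ 2 := by nlinarith
      nlinarith
  have hu : 2 / (R : ℝ) ≤ 4 * (512 * c) / r := by
    rw [div_le_div_iff₀ hR0 hr0]; linarith
  obtain ⟨h1, h2⟩ := of_spec h hn0 hr00 hk0 hF hD (fun e => (hw e).1) hlam0 hl
    (by rw [div_lt_one hR0]; linarith) (hK _ hv)
  refine ⟨Half.sel_sublist _ _, ?_, forall_proper.2 fun S _ _ => ?_⟩
  · refine ((Half.pcl_sel h _ _).2 h1).of_le (by omega) ?_
    push_cast
    exact num_pc hc1 hr0 (by linarith) (by rw [← pow_succ]; exact_mod_cast ht1) hkt hk0 hu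
      (Nat.cast_nonneg _)
  · rw [Half.cutL_sel h, cutL_vals h]
    refine (h2 S).trans (mul_le_mul_of_nonneg_right ?_ (Nat.cast_nonneg _))
    push_cast
    have e1 : (8 * (512 * (c : ℝ)) + 5) / r = 2 * (4 * (512 * c) / r) + 5 / r := by ring
    have : 0 ≤ 5 / (r : ℝ) := by positivity
    rw [e1]
    linarith

end Crest.Agent.X37.Hv
end

-- ▼ part X37/Half/Cascade
section

/-!
# Row 37: the cascade of halving steps

Repeated halving turns a `k`-edge-connected edge list into a connected sublist all of whose cuts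
are thinner by the factor `C / k`.
-/

set_option autoImplicit false

namespace Crest.Agent.X37.Half

open Crest.Agent.Lib.PT Crest.Agent.X37.IO Finset
open Crest.CombinatoricsR.Multigraph

/-! ### twelfth roots -/

/-- the integer twelfth root of `t`, if it is at most `m` -/
def rt (m t : ℕ) : ℕ := (List.range m).countP fun i => decide ((i + 1) ^ 12 ≤ t)

theorem rt_le (m t : ℕ) : rt m t ≤ m := by
  simpa [rt] using List.countP_le_length (p := fun i => decide ((i + 1) ^ 12 ≤ t))
    (l := List.range m)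

theorem rt_aux (m t : ℕ) : rt m t ^ 12 ≤ t ∧ (rt m t = m ∨ t < (rt m t + 1) ^ 12) := by
  induction m with
  | zero => simp [rt]
  | succ m ih =>
    have e : rt (m + 1) t = rt m t + if (m + 1) ^ 12 ≤ t then 1 else 0 := by
      simp [rt, List.range_succ, List.countP_append, List.countP_cons]
    have hle := rt_le m t
    rw [e]
    split_ifs with h
    · have : rt m t = m := by
        rcases ih.2 with h1 | h1
        · exact h1
        · have := lt_of_pow_lt_pow_left₀ 12 (Nat.zero_le _) (h.trans_lt h1)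
          omega
      rw [this]
      exact ⟨h, Or.inl rfl⟩
    · refine ⟨ih.1, Or.inr ?_⟩
      rcases ih.2 with h1 | h1
      · rw [add_zero, h1]; omega
      · exact h1

theorem rt_pow_le (m t : ℕ) : rt m t ^ 12 ≤ t := (rt_aux m t).1

theorem lt_rt_succ_pow {m t : ℕ} (h : t ≤ m) : t < (rt m t + 1) ^ 12 := by
  rcases (rt_aux m t).2 with h1 | h1
  · rw [h1]
    calc t < m + 1 := by omega
      _ ≤ (m + 1) ^ 12 := Nat.le_self_pow (by norm_num) _
  · exact h1

theorem le_rt {m t R : ℕ} (h : t ≤ m) (hR : R ^ 12 ≤ t) : R ≤ rt m t := by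
  have := lt_of_pow_lt_pow_left₀ 12 (Nat.zero_le _) (hR.trans_lt (lt_rt_succ_pow h))
  omega

theorem succ_pow_le {r : ℕ} (hr : 40 ≤ r) : (r + 1) ^ 12 ≤ r ^ 13 := by
  have h1 : (40 * (r + 1)) ^ 12 ≤ (41 * r) ^ 12 := Nat.pow_le_pow_left (by omega) _
  rw [mul_pow, mul_pow] at h1
  have h2 : 41 ^ 12 * r ^ 12 ≤ 40 ^ 12 * (r * r ^ 12) := by
    rw [← mul_assoc]
    exact Nat.mul_le_mul_right _ (by omega)
  have h3 : r ^ 13 = r * r ^ 12 := by ring
  rw [h3]
  exact Nat.le_of_mul_le_mul_left (h1.trans h2) (by norm_num)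

/-- halving `t` shrinks the root by a constant factor -/
theorem root_shrink {r r' t t' : ℕ} (hr : 40 ≤ r) (h1 : r' ^ 12 ≤ t') (h2 : 2 * t' ≤ t)
    (h3 : t < (r + 1) ^ 12) : 100 * r' ≤ 97 * r := by
  by_contra hc
  have h4 : (97 * r) ^ 12 ≤ (100 * r') ^ 12 := Nat.pow_le_pow_left (by omega) _
  have h5 : (40 * (r + 1)) ^ 12 ≤ (41 * r) ^ 12 := Nat.pow_le_pow_left (by omega) _
  rw [mul_pow, mul_pow] at h4 h5
  omega

/-! ### the numerical step -/

theorem num_step {A r r' t t' : ℕ} (hr : 40 ≤ r) (hA : 2 * (A + 1) ≤ r) (hr' : 1 ≤ r')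
    (hs : 100 * r' ≤ 97 * r) (hrt : r ≤ t) (ht : t * (r - A) < 2 * r * (t' + 1)) :
    (1 + (A : ℝ) / r) / 2 * ((2 * t + 1) * Real.exp (300 * (A + 1) / r)) ≤
      (2 * t' + 1) * Real.exp (300 * (A + 1) / r') := by
  have r0 : (0 : ℝ) < r := by exact_mod_cast (by omega : 0 < r)
  have r0' : (0 : ℝ) < r' := by exact_mod_cast hr'
  have hs' : (100 : ℝ) * r' ≤ 97 * r := by exact_mod_cast hs
  have hA' : 2 * ((A : ℝ) + 1) ≤ r := by exact_mod_cast hA
  have hrt' : (r : ℝ) ≤ t := by exact_mod_cast hrt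
  have ht' : (t : ℝ) * (r - A) < 2 * r * (t' + 1) := by
    have : ((t * (r - A) : ℕ) : ℝ) < ((2 * r * (t' + 1) : ℕ) : ℝ) := by exact_mod_cast ht
    rw [Nat.cast_mul, Nat.cast_sub (by omega)] at this
    push_cast at this
    exact this
  have A0 : (0 : ℝ) ≤ A := Nat.cast_nonneg A
  set b : ℝ := (A + 1) / r with hb
  have b0 : 0 < b := by positivity
  have b1 : b ≤ 1 / 2 := by rw [hb, div_le_iff₀ r0]; linarith
  have hbr : b * r = A + 1 := by rw [hb]; field_simp
  have e1 : 300 * ((A : ℝ) + 1) / r + 8 * b ≤ 300 * (A + 1) / r' := by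
    rw [le_div_iff₀ r0']
    have : 300 * ((A : ℝ) + 1) / r = 300 * b := by rw [hb]; ring
    rw [this, ← hbr]
    nlinarith
  have e2 : Real.exp (300 * (A + 1) / r) * (1 + 8 * b) ≤ Real.exp (300 * (A + 1) / r') := by
    refine le_trans ?_ (Real.exp_le_exp.2 e1)
    rw [Real.exp_add]
    exact mul_le_mul_of_nonneg_left (by linarith [Real.add_one_le_exp (8 * b)]) (Real.exp_pos _).le
  have e3 : (A : ℝ) / r ≤ b := by rw [hb]; gcongr; linarith
  have e4 : (1 : ℝ) ≤ b * t := by nlinarith
  have e5 : (t : ℝ) * (1 - b) ≤ 2 * t' + 1 := by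
    have : (r : ℝ) * (t * (1 - b)) ≤ r * (2 * t' + 1) := by nlinarith
    exact le_of_mul_le_mul_left this r0
  have t0 : (0 : ℝ) < t := r0.trans_le hrt'
  have e6 : (1 + (A : ℝ) / r) / 2 * (2 * t + 1) ≤ (2 * t' + 1) * (1 + 8 * b) := by
    have f1 : (1 + (A : ℝ) / r) / 2 * (2 * t + 1) ≤ (1 + b) * (t * (1 + b)) := by
      have : (1 + (A : ℝ) / r) / 2 * (2 * t + 1) = (1 + A / r) * (t + 1 / 2) := by ring
      rw [this]
      exact mul_le_mul (by linarith) (by nlinarith) (by positivity) (by positivity)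
    have f2 : (1 + b) * (1 + b) ≤ (1 - b) * (1 + 8 * b) := by nlinarith
    calc _ ≤ (1 + b) * (t * (1 + b)) := f1
      _ = t * ((1 + b) * (1 + b)) := by ring
      _ ≤ t * ((1 - b) * (1 + 8 * b)) := by gcongr
      _ = t * (1 - b) * (1 + 8 * b) := by ring
      _ ≤ _ := by gcongr
  calc _ = (1 + (A : ℝ) / r) / 2 * (2 * t + 1) * Real.exp (300 * (A + 1) / r) := by ring
    _ ≤ (2 * t' + 1) * (1 + 8 * b) * Real.exp (300 * (A + 1) / r) := by gcongr
    _ = (2 * t' + 1) * (Real.exp (300 * (A + 1) / r) * (1 + 8 * b)) := by ring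
    _ ≤ _ := by gcongr

/-! ### the loop -/

/-- inputs of the core problem -/
abbrev Inp : Type := Un × ℕ × List (ℕ × ℕ)

/-- valid inputs -/
def Valid (a : Inp) : Prop :=
  1 ≤ a.2.1 ∧ Loopless a.1.n a.2.2 ∧ ∀ S, Proper a.1.n S → a.2.1 ≤ cutL a.2.2 S

/-- one round -/
def round (A R : ℕ) (half : Un × Un × ℕ × List (ℕ × ℕ) → List (ℕ × ℕ)) (a : Inp)
    (c : ℕ × List (ℕ × ℕ)) : ℕ × List (ℕ × ℕ) :=
  if R ^ 12 ≤ c.1 then
    (c.1 * (rt a.2.2.length c.1 - A) / (2 * rt a.2.2.length c.1),
      half (a.1, ⟨rt a.2.2.length c.1⟩, c.1, c.2))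
  else c

theorem rt_pt {α : Type} [Enc α] {m t : α → ℕ} (hm : PT m) (hb : PB m) (ht : PT t) :
    PT fun a => rt (m a) (t a) := by
  have h1 : PT fun q : α × ℕ => (q.2 + 1) ^ 12 :=
    PT.nat_pow (by fun_prop) (PT.const 12) (PB.const 12)
  have h2 : PT fun q : α × ℕ => t q.1 := ht.comp (PT.fst PT.id)
  exact PT.countP (hm.range hb) (PT.decide (PT.nat_le h1 h2))

theorem round_pt (A R : ℕ) {half : Un × Un × ℕ × List (ℕ × ℕ) → List (ℕ × ℕ)} (h : PT half) :
    PT fun p : Inp × ℕ × List (ℕ × ℕ) => round A R half p.1 p.2 := by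
  have h1 : PT fun p : Inp × ℕ × List (ℕ × ℕ) => rt p.1.2.2.length p.2.1 :=
    rt_pt (by fun_prop) (by fun_prop) (by fun_prop)
  have h2 : PT fun p : Inp × ℕ × List (ℕ × ℕ) => Un.mk (rt p.1.2.2.length p.2.1) :=
    PT.un_mk h1 (PB.mono (g := fun p : Inp × ℕ × List (ℕ × ℕ) => p.1.2.2.length) (by fun_prop)
      fun p => rt_le _ _)
  have h3 : PT fun p : Inp × ℕ × List (ℕ × ℕ) => p.2.1 := by fun_prop
  unfold round
  refine PT.ite (PT.nat_le (PT.const _) h3) (PT.pair ?_ ?_) (by fun_prop)
  · exact PT.nat_div (PT.nat_mul h3 (PT.nat_sub h1 (PT.const _))) (PT.nat_mul (PT.const _) h1)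
  · exact h.comp (PT.pair (by fun_prop) (PT.pair h2 (by fun_prop)))

/-- the invariant -/
structure Inv (A R : ℕ) (a : Inp) (j : ℕ) (c : ℕ × List (ℕ × ℕ)) : Prop where
  sub : c.2.Sublist a.2.2
  conn : ∀ S, Proper a.1.n S → 1 ≤ cutL c.2 S
  pc : 2 ≤ a.1.n → PCL a.1.n c.1 c.2
  le : c.1 ≤ a.2.1
  thin : ∀ S, Proper a.1.n S → (a.2.1 : ℝ) * cutL c.2 S ≤
    (2 * c.1 + 1) * Real.exp (300 * (A + 1) / rt a.2.2.length c.1) * cutL a.2.2 S
  stop : c.1 < R ^ 12 ∨ c.1 + j ≤ a.2.1

theorem proper_zero {n : ℕ} (hn : 2 ≤ n) : Proper n {0} := by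
  refine ⟨by simp; omega, by simp, fun h => ?_⟩
  have : 1 ∈ ({0} : Finset ℕ) := h ▸ mem_range.2 (by omega)
  simp at this

theorem inv_start (A R : ℕ) {a : Inp} (ha : Valid a) : Inv A R a 0 (a.2.1 / 2, a.2.2) := by
  obtain ⟨h1, h2, h3⟩ := ha
  refine ⟨List.Sublist.refl _, fun S hS => h1.trans (h3 S hS), fun hn => ?_, Nat.div_le_self _ _,
    fun S _ => ?_, Or.inr (Nat.div_le_self _ _)⟩
  · have H : PCL a.1.n ((a.2.1 : ℝ) / 2) a.2.2 := by
      rw [pcl_iff h2]
      refine pc_of_cuts (Nat.cast_nonneg _) fun S hS hS' => ?_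
      have := h3 _ (proper_vals.2 ⟨hS, hS'⟩)
      rw [cutL_vals h2] at this
      exact_mod_cast this
    refine H.of_le (by omega) ?_
    exact_mod_cast Nat.cast_div_le (α := ℝ) (m := a.2.1) (n := 2)
  · refine mul_le_mul_of_nonneg_right ?_ (Nat.cast_nonneg _)
    have e1 : (a.2.1 : ℝ) ≤ 2 * ((a.2.1 / 2 : ℕ) : ℝ) + 1 := by
      exact_mod_cast (by omega : a.2.1 ≤ 2 * (a.2.1 / 2) + 1)
    refine e1.trans (le_mul_of_one_le_right (by positivity) ?_)
    exact Real.one_le_exp (by positivity)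

theorem inv_round {A r0 R : ℕ} {half : Un × Un × ℕ × List (ℕ × ℕ) → List (ℕ × ℕ)}
    (H : ∀ (n r t : ℕ) (es : List (ℕ × ℕ)), Loopless n es → 2 ≤ n → r0 ≤ r → r ^ 12 ≤ t →
      t ≤ r ^ 13 → PCL n t es →
      (half (⟨n⟩, ⟨r⟩, t, es)).Sublist es ∧
      PCL n ((1 - (A : ℝ) / r) * t / 2) (half (⟨n⟩, ⟨r⟩, t, es)) ∧
      ∀ S, Proper n S →
        (cutL (half (⟨n⟩, ⟨r⟩, t, es)) S : ℝ) ≤ (1 + (A : ℝ) / r) / 2 * cutL es S)
    (hR1 : 40 ≤ R) (hR2 : r0 ≤ R) (hR3 : 2 * (A + 1) ≤ R) {a : Inp} {j : ℕ}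
    {c : ℕ × List (ℕ × ℕ)} (ha : Valid a) (hj : j < a.2.2.length) (h : Inv A R a j c) :
    Inv A R a (j + 1) (round A R half a c) := by
  obtain ⟨⟨n⟩, k, es⟩ := a
  obtain ⟨t, l⟩ := c
  obtain ⟨h1, h2, h3⟩ := ha
  dsimp only at h1 h2 h3 hj
  unfold round
  split_ifs with hc
  swap
  · exact ⟨h.sub, h.conn, h.pc, h.le, h.thin, Or.inl (not_le.1 hc)⟩
  dsimp only at hc ⊢
  have hn : 2 ≤ n := by
    have := h2 _ (List.getElem_mem hj)
    omega
  have htk : t ≤ k := h.le
  have htm : t ≤ es.length := htk.trans ((h3 _ (proper_zero hn)).trans (cutL_le_length _ _))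
  set r := rt es.length t with hr
  have hRr : R ≤ r := le_rt htm hc
  have hr1 : r ^ 12 ≤ t := rt_pow_le _ _
  have hr2 : t < (r + 1) ^ 12 := lt_rt_succ_pow htm
  have hr40 : 40 ≤ r := hR1.trans hRr
  obtain ⟨g1, g2, g3⟩ := H n r t l (h2.sublist fun e he => h.sub.subset he) hn (hR2.trans hRr) hr1
    (hr2.le.trans (succ_pow_le hr40)) (h.pc hn)
  set t' := t * (r - A) / (2 * r) with ht'
  have r0' : 0 < 2 * r := by omega
  have k1 : 2 * r * t' ≤ t * (r - A) := Nat.mul_div_le _ _
  have k2 : t * (r - A) < 2 * r * (t' + 1) := Nat.lt_mul_div_succ _ r0'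
  have k3 : 2 * t' ≤ t := by
    have : r * (2 * t') ≤ r * t := by
      calc r * (2 * t') = 2 * r * t' := by ring
        _ ≤ t * (r - A) := k1
        _ ≤ t * r := Nat.mul_le_mul_left _ (Nat.sub_le _ _)
        _ = r * t := mul_comm _ _
    exact Nat.le_of_mul_le_mul_left this (by omega)
  have hrt : r ≤ t := (Nat.le_self_pow (by norm_num) r).trans hr1
  have k4 : 1 ≤ t' := by
    by_contra hlt
    have e0 : t' = 0 := by omega
    rw [e0] at k2
    have : 4 * (r - A) ≤ t * (r - A) := Nat.mul_le_mul_right _ (by omega)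
    omega
  have rpos : (0 : ℝ) < r := by exact_mod_cast (by omega : 0 < r)
  have g2' : PCL n t' (half (⟨n⟩, ⟨r⟩, t, l)) := by
    refine g2.of_le (by omega) ?_
    have : ((2 * r * t' : ℕ) : ℝ) ≤ ((t * (r - A) : ℕ) : ℝ) := by exact_mod_cast k1
    rw [Nat.cast_mul t, Nat.cast_sub (by omega)] at this
    push_cast at this
    have e : (1 - (A : ℝ) / r) * t / 2 = t * (r - A) / (2 * r) := by field_simp
    rw [e, le_div_iff₀ (by positivity)]
    linarith
  refine ⟨g1.trans h.sub, fun S hS => ?_, fun _ => g2', by dsimp only; omega, fun S hS => ?_, ?_⟩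
  · have := g2'.le_cutL hS
    have : t' ≤ cutL (half (⟨n⟩, ⟨r⟩, t, l)) S := by exact_mod_cast this
    exact k4.trans this
  · dsimp only
    have f1 := g3 S hS
    have f2 : (k : ℝ) * cutL l S ≤
        (2 * t + 1) * Real.exp (300 * (A + 1) / r) * cutL es S := h.thin S hS
    have hr' : 1 ≤ rt es.length t' := le_rt (by omega) (by simpa using k4)
    have f3 := num_step hr40 (hR3.trans hRr) hr'
      (root_shrink hr40 (rt_pow_le es.length t') k3 hr2) hrt k2
    calc (k : ℝ) * cutL (half (⟨n⟩, ⟨r⟩, t, l)) S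
        ≤ k * ((1 + (A : ℝ) / r) / 2 * cutL l S) := by gcongr
      _ = (1 + (A : ℝ) / r) / 2 * (k * cutL l S) := by ring
      _ ≤ (1 + (A : ℝ) / r) / 2 * ((2 * t + 1) * Real.exp (300 * (A + 1) / r) * cutL es S) := by
        gcongr
      _ = (1 + (A : ℝ) / r) / 2 * ((2 * t + 1) * Real.exp (300 * (A + 1) / r)) * cutL es S := by
        ring
      _ ≤ _ := by gcongr
  · have : t < R ^ 12 ∨ t + j ≤ k := h.stop
    dsimp only
    omega

/-- **The cascade.** -/
theorem core_of_half (h : HalfStatement) : CoreStatement := by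
  obtain ⟨A, r0, half, hpt, H⟩ := h
  set R := 40 + r0 + 2 * (A + 1) with hR
  have S : Solvable Valid fun (a : Inp) (c : ℕ × List (ℕ × ℕ)) => Inv A R a a.2.2.length c := by
    refine Solvable.iter (Inv A R) (n := fun a => a.2.2.length) (by fun_prop) (by fun_prop)
      ⟨fun a => (a.2.1 / 2, a.2.2), by fun_prop, fun a ha => inv_start A R ha⟩
      (round_pt A R hpt)
      (fun a j c ha hj hc => inv_round H (by omega) (by omega) (by omega) ha hj hc)
      (B := fun a => 2 * sz a.2.1 + sz a.2.2 + 1) (by fun_prop) fun a j c _ _ hc => ?_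
    have h1 := sz_nat_le_of_le hc.le
    have h2 := sz_sublist hc.sub
    have h3 : sz c = sz c.1 + sz c.2 + 1 := rfl
    omega
  obtain ⟨F, hF, hS⟩ := S
  refine ⟨(2 * (R : ℝ) ^ 12 + 1) * Real.exp (300 * (A + 1)), fun a => (F a).2, by positivity,
    by fun_prop, fun n k es h1 h2 h3 => ?_⟩
  have I := hS (⟨n⟩, k, es) ⟨h1, h2, h3⟩
  refine ⟨fun e he => I.sub.subset he, fun S hS => ⟨I.conn S hS, ?_⟩⟩
  have f1 : (k : ℝ) * cutL (F (⟨n⟩, k, es)).2 S ≤ (2 * (F (⟨n⟩, k, es)).1 + 1) *
      Real.exp (300 * (A + 1) / rt es.length (F (⟨n⟩, k, es)).1) * cutL es S := I.thin S hS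
  have f2 : (F (⟨n⟩, k, es)).1 < R ^ 12 ∨ (F (⟨n⟩, k, es)).1 + es.length ≤ k := I.stop
  have f3 : k ≤ es.length := (h3 S hS).trans (cutL_le_length _ _)
  have f4 : (F (⟨n⟩, k, es)).1 ≤ R ^ 12 := by omega
  have f5 : ((F (⟨n⟩, k, es)).1 : ℝ) ≤ (R : ℝ) ^ 12 := by exact_mod_cast f4
  have kpos : (0 : ℝ) < k := by exact_mod_cast h1
  have f6 : 300 * ((A : ℝ) + 1) / rt es.length (F (⟨n⟩, k, es)).1 ≤ 300 * (A + 1) := by
    rcases Nat.eq_zero_or_pos (rt es.length (F (⟨n⟩, k, es)).1) with h0 | h0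
    · rw [h0]; simp; positivity
    · exact div_le_self (by positivity) (by exact_mod_cast h0)
  rw [div_mul_eq_mul_div, le_div_iff₀ kpos, mul_comm]
  refine f1.trans ?_
  gcongr

end Crest.Agent.X37.Half
end

-- ▼ part X37/IO/Tree
section

/-!
# Row 37: a spanning tree of a connected edge list, in polynomial time
-/

set_option autoImplicit false

namespace Crest.Agent.X37.IO

open Crest.Agent.Lib.PT Crest.CombinatoricsR.Multigraph

/-- one round: add an edge leaving the set of vertices reached so far -/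
def growStep (H : List (ℕ × ℕ)) (c : List ℕ × List (ℕ × ℕ)) : List ℕ × List (ℕ × ℕ) :=
  (H.find? fun e => decide ((e.1 ∈ c.1 ∧ ¬ e.2 ∈ c.1) ∨ (¬ e.1 ∈ c.1 ∧ e.2 ∈ c.1))).elim c
    fun e => ((if e.1 ∈ c.1 then e.2 else e.1) :: c.1, e :: c.2)

/-- a spanning tree grown from the vertex `0` -/
def treeL (n : ℕ) (H : List (ℕ × ℕ)) : List (ℕ × ℕ) := ((growStep H)^[n - 1] ([0], [])).2

theorem sz_growStep (H : List (ℕ × ℕ)) (c : List ℕ × List (ℕ × ℕ)) :
    sz (growStep H c) ≤ sz c + (2 * sz H + 2) := by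
  unfold growStep
  cases h : H.find? _ with
  | none => simp
  | some e =>
    have h1 := sz_le_of_mem (List.mem_of_find?_eq_some h)
    have h2 := sz_prod e
    have h3 := sz_prod c
    simp only [Option.elim, sz_mk, sz_cons]
    split_ifs <;> omega

theorem growStep_pt : PT fun p : List (ℕ × ℕ) × List ℕ × List (ℕ × ℕ) => growStep p.1 p.2 := by
  unfold growStep
  fun_prop

attribute [irreducible] growStep

@[fun_prop] theorem treeL_pt {α : Type} [Enc α] {n : α → ℕ} {H : α → List (ℕ × ℕ)} (hn : PT n)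
    (hb : PB n) (hH : PT H) : PT fun a => treeL (n a) (H a) := by
  unfold treeL
  refine PT.snd (PT.iterate_grow (f := fun a => growStep (H a)) (by fun_prop) (by fun_prop)
    (by fun_prop) (growStep_pt.comp_eq (fun p => (H p.1, p.2)) (by fun_prop))
    (G := fun a => 2 * sz (H a) + 2) (by fun_prop) fun a c => sz_growStep _ _)

/-- the invariant after `t` rounds -/
structure GrowInv (n : ℕ) (H : List (ℕ × ℕ)) (t : ℕ) (c : List ℕ × List (ℕ × ℕ)) : Prop where
  nodupR : c.1.Nodup
  lenR : c.1.length = t + 1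
  ltR : ∀ v ∈ c.1, v < n
  nodupT : c.2.Nodup
  lenT : c.2.length = t
  sub : ∀ e ∈ c.2, e ∈ H
  inside : ∀ e ∈ c.2, e.1 ∈ c.1 ∧ e.2 ∈ c.1
  conn : ∀ S : Finset ℕ, ∀ u ∈ c.1, ∀ v ∈ c.1, u ∈ S → v ∉ S → ∃ e ∈ c.2, crossB S e = true

theorem GrowInv.step {n : ℕ} {H : List (ℕ × ℕ)} (hH : Loopless n H)
    (hc : ∀ S, Proper n S → 1 ≤ cutL H S) {t : ℕ} (ht : t + 1 < n)
    {c : List ℕ × List (ℕ × ℕ)} (h : GrowInv n H t c) : GrowInv n H (t + 1) (growStep H c) := by
  obtain ⟨R, T⟩ := c
  have hP : Proper n R.toFinset := by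
    refine ⟨fun v hv => Finset.mem_range.2 (h.ltR v (List.mem_toFinset.1 hv)), ?_, fun e => ?_⟩
    · rw [← Finset.card_pos, List.toFinset_card_of_nodup h.nodupR, h.lenR]; omega
    · have := congrArg Finset.card e
      rw [List.toFinset_card_of_nodup h.nodupR, h.lenR, Finset.card_range] at this
      omega
  obtain ⟨e0, he0, hx0⟩ := cutL_pos.1 (hc _ hP)
  unfold growStep
  cases hf : H.find? _ with
  | none =>
    have := List.find?_eq_none.1 hf e0 he0
    simp only [crossB_iff, List.mem_toFinset] at hx0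
    simp only [decide_eq_true_eq] at this
    exact absurd hx0 this
  | some e =>
    have he := List.mem_of_find?_eq_some hf
    have hx := List.find?_some hf
    simp only [decide_eq_true_eq] at hx
    obtain ⟨a, b, hab, ha, hb, hn⟩ : ∃ a b : ℕ, (e = (a, b) ∨ e = (b, a)) ∧ a ∈ R ∧ b ∉ R ∧
        (if e.1 ∈ R then e.2 else e.1) = b := by
      rcases hx with ⟨h1, h2⟩ | ⟨h1, h2⟩
      · exact ⟨e.1, e.2, Or.inl rfl, h1, h2, if_pos h1⟩
      · exact ⟨e.2, e.1, Or.inr rfl, h2, h1, if_neg h1⟩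
    simp only [Option.elim, hn]
    have hbn : b < n := by
      rcases hab with rfl | rfl
      · exact (hH _ he).2.1
      · exact (hH _ he).1
    have heT : e ∉ T := fun hT => by
      have := h.inside e hT
      rcases hab with rfl | rfl
      · exact hb this.2
      · exact hb this.1
    have hcross : ∀ S : Finset ℕ, (a ∈ S ↔ b ∉ S) → crossB S e = true := fun S hS => by
      rw [crossB_iff]
      rcases hab with rfl | rfl <;> tauto
    refine ⟨List.nodup_cons.2 ⟨hb, h.nodupR⟩, by simpa using h.lenR, ?_,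
      List.nodup_cons.2 ⟨heT, h.nodupT⟩, by simpa using h.lenT, ?_, ?_, ?_⟩
    · intro v hv
      rcases List.mem_cons.1 hv with rfl | hv
      exacts [hbn, h.ltR v hv]
    · intro f hf
      rcases List.mem_cons.1 hf with rfl | hf
      exacts [he, h.sub f hf]
    · intro f hf
      rcases List.mem_cons.1 hf with rfl | hf
      · rcases hab with rfl | rfl <;> simp [ha]
      · exact ⟨List.mem_cons_of_mem _ (h.inside f hf).1, List.mem_cons_of_mem _ (h.inside f hf).2⟩
    · intro S u hu v hv huS hvS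
      have old : ∀ u ∈ R, ∀ v ∈ R, u ∈ S → v ∉ S → ∃ f ∈ e :: T, crossB S f = true :=
        fun u hu v hv h1 h2 => (h.conn S u hu v hv h1 h2).imp fun f hf =>
          ⟨List.mem_cons_of_mem _ hf.1, hf.2⟩
      by_cases haS : a ∈ S
      · rcases List.mem_cons.1 hv with rfl | hv
        · exact ⟨e, List.mem_cons_self, hcross S (by tauto)⟩
        · exact old a ha v hv haS hvS
      · rcases List.mem_cons.1 hu with rfl | hu
        · exact ⟨e, List.mem_cons_self, hcross S (by tauto)⟩
        · exact old u hu a ha huS haS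

theorem growInv {n : ℕ} {H : List (ℕ × ℕ)} (hH : Loopless n H)
    (hc : ∀ S, Proper n S → 1 ≤ cutL H S) (t : ℕ) (ht : t < n) :
    GrowInv n H t ((growStep H)^[t] ([0], [])) := by
  induction t with
  | zero =>
    refine ⟨by simp, rfl, by simpa using ht, by simp, rfl, by simp, by simp, ?_⟩
    intro S u hu v hv h1 h2
    simp only [Function.iterate_zero, id, List.mem_singleton] at hu hv
    exact absurd (hu.trans hv.symm ▸ h1) h2
  | succ t ih =>
    rw [Function.iterate_succ_apply']
    exact (ih (by omega)).step hH hc ht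

/-- **The tree**: `n - 1` distinct edges of the list that cross every proper set. -/
theorem treeL_spec {n : ℕ} (hn : 1 ≤ n) {H : List (ℕ × ℕ)} (hH : Loopless n H)
    (hc : ∀ S, Proper n S → 1 ≤ cutL H S) :
    (treeL n H).Nodup ∧ (treeL n H).length + 1 = n ∧ (∀ e ∈ treeL n H, e ∈ H) ∧
      ∀ S, Proper n S → 1 ≤ cutL (treeL n H) S := by
  have h := growInv hH hc (n - 1) (by omega)
  refine ⟨h.nodupT, by rw [treeL, h.lenT]; omega, h.sub, fun S hS => cutL_pos.2 ?_⟩
  have hR : ((growStep H)^[n - 1] ([0], [])).1.toFinset = Finset.range n := by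
    refine Finset.eq_of_subset_of_card_le
      (fun v hv => Finset.mem_range.2 (h.ltR v (List.mem_toFinset.1 hv))) ?_
    rw [List.toFinset_card_of_nodup h.nodupR, h.lenR, Finset.card_range]; omega
  obtain ⟨u, hu⟩ := hS.2.1
  obtain ⟨v, hv, hvS⟩ := Finset.exists_of_ssubset (Finset.ssubset_iff_subset_ne.2 ⟨hS.1, hS.2.2⟩)
  exact h.conn S u (List.mem_toFinset.1 (hR ▸ hS.1 hu)) v (List.mem_toFinset.1 (hR ▸ hv)) hu hvS

/-- a list without repetitions of edges of `H` has smaller cuts -/
theorem cutL_le_of_nodup {T H : List (ℕ × ℕ)} (hT : T.Nodup) (h : ∀ e ∈ T, e ∈ H)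
    (S : Finset ℕ) : cutL T S ≤ cutL H S :=
  (List.subperm_of_subset hT h).countP_le _

/-- a graph in which every proper vertex set is crossed is connected -/
theorem connected_of_cuts {V E : Type} [Fintype V] [DecidableEq V] [Nonempty V]
    (src tgt : E → V) (F : Finset E)
    (h : ∀ S : Finset V, S.Nonempty → S ≠ Finset.univ → 1 ≤ (cutEdges src tgt F S).card) :
    (adjGraph src tgt F).Connected := by
  classical
  refine ⟨fun u v => ?_⟩
  by_contra huv
  obtain ⟨e, he⟩ := Finset.card_pos.1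
    (h (Finset.univ.filter fun w => (adjGraph src tgt F).Reachable u w) ⟨u, by simp⟩
      fun hS => huv (by simpa using Finset.eq_univ_iff_forall.1 hS v))
  simp only [cutEdges, Finset.mem_filter, Finset.mem_univ, true_and] at he
  obtain ⟨heF, ⟨h1, h2⟩ | ⟨h1, h2⟩⟩ := he
  · exact h2 (h1.trans (SimpleGraph.Adj.reachable
      ⟨fun e' => h2 (e' ▸ h1), e, heF, Or.inl ⟨rfl, rfl⟩⟩))
  · exact h1 (h2.trans (SimpleGraph.Adj.reachable
      ⟨fun e' => h1 (e' ▸ h2), e, heF, Or.inr ⟨rfl, rfl⟩⟩))

end Crest.Agent.X37.IO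
end

-- ▼ part X37/IO/Ex
section

/-!
# Row 37: the existence statement (S0050) from the core statement
-/

set_option autoImplicit false

namespace Crest.Agent.X37.IO

open Crest.Agent.Lib.PT Crest.CombinatoricsR.Multigraph

section
variable {V E : Type} [DecidableEq V] {n : ℕ} (φ : V ≃ Fin n) (src tgt : E → V)

/-- an edge as a pair of numbers -/
def numE (e : E) : ℕ × ℕ := ((φ (src e) : ℕ), (φ (tgt e) : ℕ))

/-- a vertex set as a set of numbers -/
def numS (S : Finset V) : Finset ℕ := vals (S.map φ.toEmbedding)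

omit [DecidableEq V] in
theorem mem_numS (S : Finset V) (v : V) : (φ v : ℕ) ∈ numS φ S ↔ v ∈ S := by
  rw [numS, val_mem_vals]
  exact Finset.mem_map' φ.toEmbedding

theorem cutL_numE (F : Finset E) (S : Finset V) :
    cutL (F.toList.map (numE φ src tgt)) (numS φ S) = (cutEdges src tgt F S).card := by
  classical
  rw [cutL, List.countP_map, List.countP_eq_length_filter,
    ← List.toFinset_card_of_nodup (F.nodup_toList.filter _), cutEdges]
  congr 1
  ext e
  simp [crossB_iff, numE, mem_numS]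

omit [DecidableEq V] in
theorem forall_proper_numS [Fintype V] {p : Finset ℕ → Prop} :
    (∀ S, Proper n S → p S) ↔
      ∀ S : Finset V, S.Nonempty → S ≠ Finset.univ → p (numS φ S) := by
  rw [forall_proper]
  constructor
  · intro h S h1 h2
    refine h _ (Finset.map_nonempty.2 h1) fun e => h2 ?_
    rw [← Finset.map_univ_equiv φ] at e
    exact Finset.map_injective _ e
  · intro h S h1 h2
    have e : (S.map φ.symm.toEmbedding).map φ.toEmbedding = S := by ext x; simp
    have := h (S.map φ.symm.toEmbedding) (Finset.map_nonempty.2 h1) fun e' => h2 (by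
      rw [← e, e', Finset.map_univ_equiv])
    rwa [numS, e] at this

end

/-- **S0050 from the core statement.** -/
theorem s0050_of_core (h : CoreStatement) :
    ∃ C : ℝ, 0 < C ∧ ∀ k : ℕ, 1 ≤ k →
      ∀ (V E : Type) [Fintype V] [DecidableEq V] [Fintype E] (src tgt : E → V),
        (∀ e, src e ≠ tgt e) → 2 ≤ Fintype.card V →
        (∀ S : Finset V, S.Nonempty → S ≠ Finset.univ →
          k ≤ (cutEdges src tgt Finset.univ S).card) →
        ∃ T : Finset E, T.card + 1 = Fintype.card V ∧ (adjGraph src tgt T).Connected ∧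
          ∀ S : Finset V, S.Nonempty → S ≠ Finset.univ →
            ((cutEdges src tgt T S).card : ℝ) ≤
              C / k * (cutEdges src tgt Finset.univ S).card := by
  classical
  obtain ⟨C, core, hC, -, h⟩ := h
  refine ⟨C, hC, fun k hk V E _ _ _ src tgt hst hV hcut => ?_⟩
  set n := Fintype.card V with hn
  let φ : V ≃ Fin n := Fintype.equivFin V
  set es := (Finset.univ : Finset E).toList.map (numE φ src tgt) with hes
  have hL : Loopless n es := by
    intro p hp
    obtain ⟨e, -, rfl⟩ := List.mem_map.1 hp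
    exact ⟨(φ _).2, (φ _).2, fun e' => hst e (φ.injective (Fin.ext e'))⟩
  obtain ⟨hsub, hH⟩ := h n k es hk hL ((forall_proper_numS φ).2 fun S h1 h2 => by
    rw [hes, cutL_numE]; exact hcut S h1 h2)
  set H := core (⟨n⟩, k, es)
  obtain ⟨t1, t2, t3, t4⟩ := treeL_spec (by omega) (hL.sublist hsub) fun S hS => (hH S hS).1
  obtain ⟨T, -, hinj, himg⟩ := Finset.exists_subset_injOn_image_eq_of_surjOn
    (f := numE φ src tgt) Set.univ (treeL n H).toFinset (fun p hp => by
      obtain ⟨e, -, rfl⟩ := List.mem_map.1 (hsub _ (t3 _ (List.mem_toFinset.1 hp)))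
      exact ⟨e, trivial, rfl⟩)
  have hperm : (T.toList.map (numE φ src tgt)).Perm (treeL n H) := by
    refine (List.perm_ext_iff_of_nodup (List.Nodup.map_on (fun x hx y hy e =>
      hinj (Finset.mem_toList.1 hx) (Finset.mem_toList.1 hy) e) T.nodup_toList) t1).2 fun p => ?_
    rw [← List.mem_toFinset (l := treeL n H), ← himg]
    simp
  have hcT : ∀ S, (cutEdges src tgt T S).card = cutL (treeL n H) (numS φ S) := fun S => by
    rw [← cutL_numE φ, cutL_perm hperm]
  have : Nonempty V := Fintype.card_pos_iff.1 (by omega)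
  refine ⟨T, ?_, connected_of_cuts src tgt T fun S h1 h2 => ?_, fun S h1 h2 => ?_⟩
  · have := hperm.length_eq
    rw [List.length_map, Finset.length_toList] at this
    omega
  · rw [hcT]
    exact (forall_proper_numS φ).1 t4 S h1 h2
  · rw [hcT, ← cutL_numE φ]
    refine le_trans ?_ ((forall_proper_numS φ).1 hH S h1 h2).2
    exact_mod_cast cutL_le_of_nodup t1 t3 _

end Crest.Agent.X37.IO
end

-- ▼ part X37/IO/Main
section

/-!
# Row 37: the algorithmic statement (S0051) from the core statement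

Multiplicities in binary are divided by `q = k / (2 n²) + 1` and capped at `n² + 1`.
-/

set_option autoImplicit false

namespace Crest.Agent.X37.IO

open Crest.Agent.Lib.PT Crest.CombinatoricsR.Multigraph Crest.Enc

/-- the reduced multiplicity of the pair `(i, j)` -/
def capM (n q : ℕ) (tab : List ℕ) (i j : ℕ) : ℕ :=
  min (if i < j then tab.getD (i * n + j) 0 / q else 0) (n * n + 1)

/-- the reduced edge list -/
def edgesL (n q : ℕ) (tab : List ℕ) : List (ℕ × ℕ) :=
  (List.range n).flatMap fun i => (List.range n).flatMap fun j =>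
    List.replicate (capM n q tab i j) (i, j)

/-- the table of bits of a list of pairs -/
def outBits (n : ℕ) (T : List (ℕ × ℕ)) : List Bool :=
  (List.range (n * n)).map fun t => decide ((t / n, t % n) ∈ T)

/-- the algorithm on decoded inputs -/
def thinD (core : Un × ℕ × List (ℕ × ℕ) → List (ℕ × ℕ)) (n k : ℕ) (tab : List ℕ) : List Bool :=
  outBits n (treeL n (core (⟨n⟩, k / (4 * (k / (2 * (n * n)) + 1)) + 1,
    edgesL n (k / (2 * (n * n)) + 1) tab)))

/-- the table read from the input -/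
def tabOf (x : List Bool) : List ℕ := (parseList parseNat (parseNat (parseNat x).2).2).1

/-- the algorithm on bit strings -/
def thinF (core : Un × ℕ × List (ℕ × ℕ) → List (ℕ × ℕ)) (x : List Bool) : List Bool :=
  thinD core (min (parseNat x).1 (tabOf x).length) (parseNat (parseNat x).2).1 (tabOf x)

/-! ### Running time -/

section
variable {α : Type} [Enc α]

@[fun_prop] theorem capM_pt {n q i j : α → ℕ} {tab : α → List ℕ} (hn : PT n) (hq : PT q)
    (ht : PT tab) (hi : PT i) (hj : PT j) :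
    PT fun a => capM (n a) (q a) (tab a) (i a) (j a) := by
  unfold capM; fun_prop

@[fun_prop] theorem capM_pb {n : α → ℕ} (hb : PB n) (q i j : α → ℕ) (tab : α → List ℕ) :
    PB fun a => capM (n a) (q a) (tab a) (i a) (j a) :=
  PB.min_right _ (by fun_prop)

attribute [local irreducible] capM in
@[fun_prop] theorem edgesL_pt {n q : α → ℕ} {tab : α → List ℕ} (hn : PT n) (hb : PB n) (hq : PT q)
    (ht : PT tab) : PT fun a => edgesL (n a) (q a) (tab a) := by
  unfold edgesL; fun_prop

@[fun_prop] theorem outBits_pt {n : α → ℕ} {T : α → List (ℕ × ℕ)} (hn : PT n) (hb : PB n)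
    (hT : PT T) : PT fun a => outBits (n a) (T a) := by
  unfold outBits; fun_prop

theorem thinD_pt {core : Un × ℕ × List (ℕ × ℕ) → List (ℕ × ℕ)} (hc : PT core) {n k : α → ℕ}
    {tab : α → List ℕ} (hn : PT n) (hb : PB n) (hk : PT k) (ht : PT tab) :
    PT fun a => thinD core (n a) (k a) (tab a) := by
  unfold thinD
  exact outBits_pt hn hb (treeL_pt hn hb (hc.comp ((hn.un_mk hb).pair
    (PT.pair (by fun_prop) (edgesL_pt hn hb (by fun_prop) ht)))))

end

theorem tabOf_pt : PT tabOf :=
  (PT.parseList (p := fun _ => parseNat) (by fun_prop) (fun _ => shrinks_parseNat)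
    (by fun_prop)).fst

theorem thinF_pt {core : Un × ℕ × List (ℕ × ℕ) → List (ℕ × ℕ)} (hc : PT core) :
    PT (thinF core) := by
  have := tabOf_pt
  exact thinD_pt hc (by fun_prop) (PB.min_right _ (PB.length tabOf_pt)) (by fun_prop) tabOf_pt

/-! ### The table -/

/-- the table of the input -/
def tabM {n : ℕ} (mult : Fin n → Fin n → ℕ) : List ℕ :=
  ((List.finRange n).map fun i => (List.finRange n).map fun j => mult i j).flatten

theorem tabM_eq {n : ℕ} (mult : Fin n → Fin n → ℕ) :
    tabM mult = List.ofFn fun t : Fin (n * n) => mult t.divNat t.modNat := by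
  rw [List.ofFn_mul, tabM, ← List.ofFn_eq_map]
  congr 2
  funext i
  rw [← List.ofFn_eq_map]
  congr 1
  funext j
  have hn : 0 < n := i.pos
  congr 1 <;> apply Fin.ext
  · simp [Nat.add_comm _ (j : ℕ), Nat.add_mul_div_right _ _ hn, Nat.div_eq_of_lt j.2]
  · simp [Nat.mod_eq_of_lt j.2]

theorem length_tabM {n : ℕ} (mult : Fin n → Fin n → ℕ) : (tabM mult).length = n * n := by
  rw [tabM_eq, List.length_ofFn]

theorem idx_lt {n : ℕ} (i j : Fin n) : (i : ℕ) * n + j < n * n := by
  have := Nat.mul_le_mul_right n (Nat.succ_le_of_lt i.2)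
  have := j.2
  rw [Nat.succ_mul] at *
  omega

theorem idx_div {n : ℕ} (i j : Fin n) : ((i : ℕ) * n + j) / n = i := by
  rw [Nat.add_comm, Nat.add_mul_div_right _ _ i.pos, Nat.div_eq_of_lt j.2, Nat.zero_add]

theorem idx_mod {n : ℕ} (i j : Fin n) : ((i : ℕ) * n + j) % n = j := by
  rw [Nat.add_comm, Nat.add_mul_mod_self_right, Nat.mod_eq_of_lt j.2]

theorem getD_tabM {n : ℕ} (mult : Fin n → Fin n → ℕ) (i j : Fin n) :
    (tabM mult).getD (i * n + j) 0 = mult i j := by
  rw [tabM_eq, List.getD_eq_getElem _ _ (by simpa using idx_lt i j), List.getElem_ofFn]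
  congr 1 <;> apply Fin.ext
  · exact idx_div i j
  · exact idx_mod i j

theorem thinF_code (core : Un × ℕ × List (ℕ × ℕ) → List (ℕ × ℕ)) {n : ℕ} (k : ℕ)
    (mult : Fin n → Fin n → ℕ) :
    thinF core (multigraphCode n k mult) = thinD core n k (tabM mult) := by
  have e : multigraphCode n k mult = natCode n ++ (natCode k ++ listCode (tabM mult)) := by
    rw [multigraphCode, List.append_assoc]; rfl
  have h : tabOf (multigraphCode n k mult) = tabM mult := by
    rw [tabOf, e]; simp
  rw [thinF, h, e, parseNat_natCode, parseNat_natCode, length_tabM,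
    min_eq_left (Nat.le_mul_self n)]

theorem mem_decode {n : ℕ} (T : List (ℕ × ℕ)) (p : Fin n × Fin n) :
    p ∈ decodePairs n (outBits n T) ↔ ((p.1 : ℕ), (p.2 : ℕ)) ∈ T := by
  rw [decodePairs, Finset.mem_filter, outBits,
    List.getD_eq_getElem _ _ (by simpa using idx_lt p.1 p.2)]
  simp [idx_div, Nat.mod_eq_of_lt p.2.2]

/-! ### The reduced edge list -/

theorem mem_edgesL {n q : ℕ} {tab : List ℕ} {e : ℕ × ℕ} (h : e ∈ edgesL n q tab) :
    e.1 < e.2 ∧ e.2 < n ∧ 1 ≤ tab.getD (e.1 * n + e.2) 0 := by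
  simp only [edgesL, List.mem_flatMap, List.mem_range, List.mem_replicate] at h
  obtain ⟨i, -, j, hj, h0, rfl⟩ := h
  unfold capM at h0
  split_ifs at h0 with hij
  · refine ⟨hij, hj, Nat.pos_of_ne_zero fun e => h0 ?_⟩
    simp only at e
    rw [e]; simp
  · simp at h0

theorem sum_cross {n : ℕ} (c : Fin n → Fin n → ℕ) (hc : ∀ i j, c i j = c j i)
    (S : Finset (Fin n)) :
    (∑ i : Fin n, ∑ j : Fin n,
      if ((i ∈ S ∧ j ∉ S) ∨ (i ∉ S ∧ j ∈ S)) ∧ i < j then c i j else 0) =
      ∑ i ∈ S, ∑ j ∈ Sᶜ, c i j := by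
  have e1 : ∑ i ∈ S, ∑ j ∈ Sᶜ, c i j =
      ∑ i : Fin n, ∑ j : Fin n, if i ∈ S ∧ j ∉ S then c i j else 0 := by
    rw [← Finset.sum_product', ← Finset.sum_product', ← Finset.sum_filter]
    congr 1
    ext p
    simp
  have e2 : (∑ i : Fin n, ∑ j : Fin n, if (i ∈ S ∧ j ∉ S) ∧ j < i then c i j else 0) =
      ∑ i : Fin n, ∑ j : Fin n, if (i ∉ S ∧ j ∈ S) ∧ i < j then c i j else 0 := by
    rw [Finset.sum_comm]
    refine Finset.sum_congr rfl fun i _ => Finset.sum_congr rfl fun j _ => ?_
    rw [hc j i]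
    exact if_congr (by tauto) rfl rfl
  have e3 : (∑ i : Fin n, ∑ j : Fin n, if i ∈ S ∧ j ∉ S then c i j else 0) =
      (∑ i : Fin n, ∑ j : Fin n, if (i ∈ S ∧ j ∉ S) ∧ i < j then c i j else 0) +
      ∑ i : Fin n, ∑ j : Fin n, if (i ∈ S ∧ j ∉ S) ∧ j < i then c i j else 0 := by
    simp only [← Finset.sum_add_distrib]
    refine Finset.sum_congr rfl fun i _ => Finset.sum_congr rfl fun j _ => ?_
    by_cases h : i ∈ S ∧ j ∉ S
    · have hij : i ≠ j := fun e => h.2 (e ▸ h.1)
      rcases lt_or_gt_of_ne hij with h' | h' <;> simp [h, h', not_lt.2 h'.le]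
    · simp only [h, false_and, if_false, add_zero]
  rw [e1, e3, e2]
  simp only [← Finset.sum_add_distrib]
  refine Finset.sum_congr rfl fun i _ => Finset.sum_congr rfl fun j _ => ?_
  by_cases hi : i ∈ S <;> by_cases hj : j ∈ S <;> simp [hi, hj]

theorem cutL_edgesL {n : ℕ} (q : ℕ) (mult : Fin n → Fin n → ℕ) (hs : ∀ i j, mult i j = mult j i)
    (S : Finset (Fin n)) :
    cutL (edgesL n q (tabM mult)) (vals S) =
      ∑ i ∈ S, ∑ j ∈ Sᶜ, min (mult i j / q) (n * n + 1) := by
  rw [← sum_cross _ (fun i j => by rw [hs i j])]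
  simp only [cutL, edgesL, List.countP_flatMap, Function.comp_def, List.countP_replicate]
  have key : ∀ f : ℕ → ℕ, ((List.range n).map f).sum = ∑ i : Fin n, f i := fun f => by
    rw [← Finset.sum_range]; rfl
  simp only [key]
  refine Finset.sum_congr rfl fun i _ => Finset.sum_congr rfl fun j _ => ?_
  simp only [crossB_iff, val_mem_vals, capM, getD_tabM, Fin.lt_def]
  by_cases h : (i : ℕ) < j <;> simp [h]

theorem loopless_edgesL (n q : ℕ) (tab : List ℕ) : Loopless n (edgesL n q tab) := fun _ he =>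
  ⟨(mem_edgesL he).1.trans (mem_edgesL he).2.1, (mem_edgesL he).2.1, (mem_edgesL he).1.ne⟩

theorem red_upper {n : ℕ} (q : ℕ) (mult : Fin n → Fin n → ℕ) (S : Finset (Fin n)) :
    q * ∑ i ∈ S, ∑ j ∈ Sᶜ, min (mult i j / q) (n * n + 1) ≤ ∑ i ∈ S, ∑ j ∈ Sᶜ, mult i j := by
  simp only [Finset.mul_sum]
  exact Finset.sum_le_sum fun i _ => Finset.sum_le_sum fun j _ =>
    (Nat.mul_le_mul_left _ (min_le_left _ _)).trans (Nat.mul_div_le _ _)

theorem red_lower {n k : ℕ} (hn : 1 ≤ n) (hk : 1 ≤ k) (mult : Fin n → Fin n → ℕ)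
    (S : Finset (Fin n)) (h : k ≤ ∑ i ∈ S, ∑ j ∈ Sᶜ, mult i j) :
    k / (4 * (k / (2 * (n * n)) + 1)) + 1 ≤
      ∑ i ∈ S, ∑ j ∈ Sᶜ, min (mult i j / (k / (2 * (n * n)) + 1)) (n * n + 1) := by
  have hnn : 0 < n * n := Nat.mul_pos hn hn
  have h1 : 2 * (n * n) * (k / (2 * (n * n))) ≤ k := Nat.mul_div_le _ _
  have h2 : k < 2 * (n * n) * (k / (2 * (n * n)) + 1) := Nat.lt_mul_div_succ _ (by omega)
  generalize k / (2 * (n * n)) = r at h1 h2 ⊢
  by_cases hbig : ∃ i ∈ S, ∃ j ∈ Sᶜ, n * n + 1 ≤ mult i j / (r + 1)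
  · obtain ⟨i, hi, j, hj, hij⟩ := hbig
    have h3 : k / (4 * (r + 1)) ≤ n * n :=
      Nat.div_le_of_le_mul (by nlinarith)
    calc k / (4 * (r + 1)) + 1 ≤ min (mult i j / (r + 1)) (n * n + 1) := by
          rw [min_eq_right hij]; omega
      _ ≤ ∑ j ∈ Sᶜ, min (mult i j / (r + 1)) (n * n + 1) :=
          Finset.single_le_sum (f := fun j => min (mult i j / (r + 1)) (n * n + 1))
            (fun _ _ => Nat.zero_le _) hj
      _ ≤ _ := Finset.single_le_sum
            (f := fun i => ∑ j ∈ Sᶜ, min (mult i j / (r + 1)) (n * n + 1))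
            (fun _ _ => Nat.zero_le _) hi
  · push Not at hbig
    rw [Finset.sum_congr rfl fun i hi => Finset.sum_congr rfl fun j hj =>
      min_eq_left (hbig i hi j hj).le]
    set A := ∑ i ∈ S, ∑ j ∈ Sᶜ, mult i j / (r + 1) with hA
    have h4 : ∑ i ∈ S, ∑ j ∈ Sᶜ, mult i j ≤ (r + 1) * A + S.card * (Sᶜ.card * r) := by
      rw [hA]
      simp only [Finset.mul_sum]
      rw [← smul_eq_mul (a := S.card), ← smul_eq_mul (a := Sᶜ.card), ← Finset.sum_const,
        ← Finset.sum_const, ← Finset.sum_add_distrib]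
      refine Finset.sum_le_sum fun i _ => ?_
      rw [← Finset.sum_add_distrib]
      refine Finset.sum_le_sum fun j _ => ?_
      have := Nat.div_add_mod (mult i j) (r + 1)
      have := Nat.mod_lt (mult i j) (show 0 < r + 1 by omega)
      omega
    have h5 : S.card ≤ n := by simpa using S.card_le_univ
    have h6 : Sᶜ.card ≤ n := by simpa using Sᶜ.card_le_univ
    have h7 : S.card * (Sᶜ.card * r) ≤ n * (n * r) :=
      Nat.mul_le_mul h5 (Nat.mul_le_mul_right _ h6)
    have h8 : k ≤ 2 * ((r + 1) * A) := by nlinarith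
    exact (Nat.div_lt_iff_lt_mul (by omega)).2 (by nlinarith)

/-- **S0051 from the core statement.** -/
theorem s0051_of_core (h : CoreStatement) :
    ∃ C : ℝ, 0 < C ∧ ∃ f : List Bool → List Bool, Crest.Complexity.PolyTime f ∧
      ∀ (n k : ℕ) (mult : Fin n → Fin n → ℕ), 1 ≤ n → 1 ≤ k →
        (∀ i j, mult i j = mult j i) → (∀ i, mult i i = 0) →
        (∀ S : Finset (Fin n), S.Nonempty → S ≠ Finset.univ →
          k ≤ ∑ i ∈ S, ∑ j ∈ Sᶜ, mult i j) →
        ∀ T : Finset (Fin n × Fin n), T = decodePairs n (f (multigraphCode n k mult)) →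
          (∀ p ∈ T, p.1 < p.2 ∧ 1 ≤ mult p.1 p.2) ∧ T.card + 1 = n ∧
          (adjGraph Prod.fst Prod.snd T).Connected ∧
          ∀ S : Finset (Fin n), S.Nonempty → S ≠ Finset.univ →
            ((cutEdges Prod.fst Prod.snd T S).card : ℝ) ≤
              C / k * ((∑ i ∈ S, ∑ j ∈ Sᶜ, mult i j : ℕ) : ℝ) := by
  obtain ⟨C, core, hC, hpt, h⟩ := h
  refine ⟨4 * C, by positivity, thinF core, PT.polyTime (thinF_pt hpt), ?_⟩
  intro n k mult hn hk hs _ hcut T hT
  rw [thinF_code, thinD] at hT
  set q := k / (2 * (n * n)) + 1 with hq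
  set k' := k / (4 * q) + 1 with hk'
  set es := edgesL n q (tabM mult) with hes
  have hL : Loopless n es := loopless_edgesL _ _ _
  obtain ⟨hsub, hH⟩ := h n k' es (Nat.le_add_left _ _) hL (forall_proper.2 fun S h1 h2 => by
    rw [hes, cutL_edgesL q mult hs]; exact red_lower hn hk mult S (hcut S h1 h2))
  set H := core (⟨n⟩, k', es)
  obtain ⟨t1, t2, t3, t4⟩ := treeL_spec hn (hL.sublist hsub) fun S hS => (hH S hS).1
  have hmem : ∀ p : Fin n × Fin n, p ∈ T ↔ ((p.1 : ℕ), (p.2 : ℕ)) ∈ treeL n H := fun p => by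
    rw [hT, mem_decode]
  have hperm : (T.toList.map (numE (Equiv.refl (Fin n)) Prod.fst Prod.snd)).Perm (treeL n H) := by
    refine (List.perm_ext_iff_of_nodup (List.Nodup.map (fun x y e => ?_) T.nodup_toList) t1).2
      fun p => ?_
    · simp only [numE, Equiv.refl_apply, Prod.mk.injEq] at e
      exact Prod.ext (Fin.ext e.1) (Fin.ext e.2)
    · simp only [List.mem_map, Finset.mem_toList, hmem, numE, Equiv.refl_apply]
      constructor
      · rintro ⟨a, ha, rfl⟩
        exact ha
      · intro hp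
        have := hL _ (hsub _ (t3 _ hp))
        exact ⟨(⟨p.1, this.1⟩, ⟨p.2, this.2.1⟩), hp, rfl⟩
  have hcT : ∀ S, (cutEdges Prod.fst Prod.snd T S).card = cutL (treeL n H) (vals S) := fun S => by
    rw [← cutL_numE (Equiv.refl (Fin n)), cutL_perm hperm, numS]
    congr 2
    ext x; simp
  have : Nonempty (Fin n) := ⟨⟨0, hn⟩⟩
  refine ⟨fun p hp => ?_, ?_, connected_of_cuts _ _ T fun S h1 h2 => ?_, fun S h1 h2 => ?_⟩
  · have := mem_edgesL (hsub _ (t3 _ ((hmem p).1 hp)))
    rw [getD_tabM] at this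
    exact ⟨this.1, this.2.2⟩
  · have := hperm.length_eq
    rw [List.length_map, Finset.length_toList] at this
    omega
  · rw [hcT]
    exact forall_proper.1 t4 S h1 h2
  · have a1 : (cutL (treeL n H) (vals S) : ℝ) ≤ cutL H (vals S) := by
      exact_mod_cast cutL_le_of_nodup t1 t3 _
    have a2 := (forall_proper.1 hH S h1 h2).2
    have a3 : (q : ℝ) * cutL es (vals S) ≤ ((∑ i ∈ S, ∑ j ∈ Sᶜ, mult i j : ℕ) : ℝ) := by
      rw [hes, cutL_edgesL q mult hs]
      exact_mod_cast red_upper q mult S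
    have a4 : (k : ℝ) ≤ 4 * q * k' := by
      exact_mod_cast (Nat.lt_mul_div_succ k (show 0 < 4 * q by positivity)).le
    have hk0 : (0 : ℝ) < k := by exact_mod_cast hk
    have hk1 : (0 : ℝ) < k' := by exact_mod_cast (show 0 < k' by positivity)
    have a5 : C / k' ≤ 4 * C / k * q := by
      rw [div_mul_eq_mul_div, div_le_div_iff₀ hk1 hk0]
      nlinarith
    rw [hcT]
    calc (cutL (treeL n H) (vals S) : ℝ) ≤ C / k' * cutL es (vals S) := a1.trans a2
      _ ≤ 4 * C / k * q * cutL es (vals S) := by gcongr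
      _ = 4 * C / k * (q * cutL es (vals S)) := by ring
      _ ≤ _ := by gcongr

end Crest.Agent.X37.IO
end

-- ▼ part X37/Final

/-!
# Row 37 (thin trees): the chain of all parts
-/

set_option autoImplicit false

namespace Crest.Agent.X37

/-- the main lemma -/
theorem mainStatement : Outer.MainStatement :=
  Outer.main_of (LB.lemmaB_of (by norm_num) Geo.claim) Gr.greedyStatement Inner.innerStatement

/-- the core statement -/
theorem coreStatement : IO.CoreStatement :=
  Half.core_of_half (Hv.half_of mainStatement KS.ksStatement)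

end Crest.Agent.X37
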